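import Vale.Agent.P231.S2N.Var

/-!
# P231, stage 3: first and second variation of the energy of a closed geodesic with an arbitrary
period `T`
-/

set_option maxSynthPendingDepth 3
set_option linter.unusedSectionVars false
set_option linter.unusedVariables false

open Bundle Manifold Set Filter Module MeasureTheory
open scoped ContDiff Manifold Topology ENNReal

namespace Vale.Agent.P231.S3V

noncomputable section

open Vale.Agent.P234 Vale.Agent.P231 Vale.Agent.P231.Fm Vale.Agent.P231.W Vale.Agent.P231.WR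
open Vale.Agent.P231.H775 Vale.Agent.P231.WC Vale.Agent.P231.S2N

variable {E : Type*} [NormedAddCommGroup E] [NormedSpace ℝ E]
  {M : Type*} [MetricSpace M] [ChartedSpace E M]
  [RiemannianBundle (fun x : M => TangentSpace 𝓘(ℝ, E) x)]
  {e : ∀ x : M, TangentSpace 𝓘(ℝ, E) x → M}
  [FiniteDimensional ℝ E] [IsManifold 𝓘(ℝ, E) ∞ M]
  [IsContMDiffRiemannianBundle 𝓘(ℝ, E) ∞ E (fun x : M => TangentSpace 𝓘(ℝ, E) x)]
  [CompactSpace M] [ConnectedSpace M] [IsRiemannianManifold 𝓘(ℝ, E) M]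

variable {D : ℝ} {v : UT E M} {Z : ℝ → E} {T : ℝ}

/-- the energy over the period `T` of the push-off of the geodesic of `v` along the field `Z` -/
def enT (e : ∀ x : M, TangentSpace 𝓘(ℝ, E) x → M) (T : ℝ) (v : UT E M) (Z : ℝ → E) (ε : ℝ) : ℝ :=
  ∫ t in (0 : ℝ)..T, sq2 (E := E) (po2 e v Z) (ε, t)

theorem po2_perT (F : Facts e) (hT : phi F (v, T) = v)
    (hper : ∀ t, Z (t + T) = Z t) (a t : ℝ) :
    po2 e v Z (a, t + T) = po2 e v Z (a, t) := by
  unfold po2
  have h1 : gm e (v, t + T) = gm e (v, t) := by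
    have h2 := gm_phi F v T t
    rw [hT] at h2
    rw [add_comm, ← h2]
  have h3 : ∀ (x y : M) (a b : E), x = y → a = b → e x a = e y b := by
    rintro x y a b rfl rfl
    rfl
  exact h3 _ _ _ _ h1 (congrArg (fun b : E => a • b) (hper t))

theorem mx2_perT (F : Facts e) (hT : phi F (v, T) = v)
    (hZ : ∀ t, FA e v Z t) (hper : ∀ t, Z (t + T) = Z t) (a : ℝ) :
    mx2 (E := E) (po2 e v Z) (a, T) = mx2 (E := E) (po2 e v Z) (a, 0) := by
  have hp : ∀ a t, po2 e v Z (a, t + T) = po2 e v Z (a, t) := po2_perT F hT hper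
  have h1 : po2 e v Z (a, T) = po2 e v Z (a, 0) := by
    have h := hp a 0
    rwa [zero_add] at h
  have h2 : (WC.vl (fun t => po2 e v Z (a, t)) T : E) =
      WC.vl (fun t => po2 e v Z (a, t)) 0 := by
    have k := vl_shift' (g := fun t => po2 e v Z (a, t)) (fun s => cm_line2 F hZ _ s) T 0
    rw [add_zero] at k
    rw [← k]
    refine congrArg (fun f : ℝ → M => (WC.vl f 0 : E)) ?_
    funext s
    rw [add_comm]
    exact hp a s
  have h3 : (WC.vl (fun s => po2 e v Z (s, T)) a : E) =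
      WC.vl (fun s => po2 e v Z (s, 0)) a := by
    refine congrArg (fun f : ℝ → M => (WC.vl f a : E)) ?_
    funext s
    have h := hp s 0
    rwa [zero_add] at h
  unfold mx2
  exact ip_congr3' (E := E) h1 h2 h3

theorem contDiff_enT (F : Facts e) (hZ : ∀ t, FA e v Z t) :
    ContDiff ℝ ∞ (enT e T v Z) := by
  have h1 : ((Dif.lin ℝ).prod (Dif.lin ℝ)).Map (Dif.lin ℝ)
      (fun q : ℝ × ℝ => sq2 (E := E) (po2 e v Z) q) := by
    intro E' _ _ _ u x hu
    exact Sm.comp (f := sq2 (E := E) (po2 e v Z)) (g := u) (Sm.of_contDiff (cd_sq2 F hZ) _)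
      (Sm.prodMk hu.1 hu.2)
  have h2 : (Dif.lin ℝ).Map (Dif.lin ℝ) (fun x : ℝ => ∫ t in (0 : ℝ)..T,
      (fun q : ℝ × ℝ => sq2 (E := E) (po2 e v Z) q) (x, t)) := H766.map_integral h1 T
  refine contDiff_iff_contDiffAt.2 fun t => ?_
  have h3 : Sm (fun x : ℝ => ∫ t in (0 : ℝ)..T, sq2 (E := E) (po2 e v Z) (x, t)) t :=
    h2 (u := fun x : ℝ => x) (Sm.of_contDiff contDiff_id t)
  exact h3.contDiffAt

/-- the energy at zero -/
theorem enT_zero (F : Facts e) (T : ℝ) (v : UT E M) (Z : ℝ → E) : enT e T v Z 0 = T := by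
  have h1 : ∀ t, sq2 (E := E) (po2 e v Z) (0, t) = 1 := by
    intro t
    have e1 : (fun s => po2 e v Z (0, s)) = fun s => gm e (v, s) := funext fun s => po2_zero F v Z s
    have e2 : (WC.vl (fun s => gm e (v, s)) t : E) = vec' (phi F (v, t)) :=
      mfderiv_gam F.isExp (foot v) (vec' v) t
    unfold sq2
    change nm (po2 e v Z (0, t)) (WC.vl (fun s => po2 e v Z (0, s)) t : E) ^ 2 = 1
    rw [e1, e2, po2_zero F]
    have h5 : nm (gm e (v, t)) (vec' (phi F (v, t))) = 1 := nm_vec' (phi F (v, t))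
    rw [h5, one_pow]
  unfold enT
  simp only [h1, intervalIntegral.integral_const, sub_zero, smul_eq_mul, mul_one]

/-- THE FIRST VARIATION of the energy -/
theorem deriv_enT (F : Facts e) (hD : 0 < D) (hB : InjGE e D) (hT : phi F (v, T) = v)
    (hZ : ∀ t, FA e v Z t) (hper : ∀ t, Z (t + T) = Z t) : deriv (enT e T v Z) 0 = 0 := by
  have h0 := congrFun (deriv_int_d1 (cd_sq2 F hZ) 0 T) 0
  have h1 : ∀ t, d1 (sq2 (E := E) (po2 e v Z)) (0, t) =
      2 * d2 (mx2 (E := E) (po2 e v Z)) (0, t) := by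
    intro t
    have h2 := first_field F hD hB (phi F (v, t)) (X := fun s => Z (t + s)) (fa_shift F hZ t 0)
    rw [sq2_shift F hZ, mx2_shift F hZ, d1_shift, d2_shift] at h2
    beta_reduce at h2
    have h3 : ((0, t) + (0, 0) : ℝ × ℝ) = (0, t) := by simp
    rw [h3] at h2
    linarith
  have h4 : deriv (enT e T v Z) 0 = ∫ t in (0 : ℝ)..T, d1 (sq2 (E := E) (po2 e v Z)) (0, t) :=
    h0
  rw [h4]
  simp only [h1]
  rw [intervalIntegral.integral_const_mul, int_d2 (cd_mx2 F hZ)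
    (mx2_perT F hT hZ hper 0), mul_zero]

/-- THE SECOND VARIATION of the energy -/
theorem deriv2_enT (F : Facts e) (hD : 0 < D) (hB : InjGE e D) (hT : phi F (v, T) = v)
    (hZ : ∀ t, FA e v Z t) (hper : ∀ t, Z (t + T) = Z t) {δ : ℝ → E}
    (hδ : ∀ t, JE e (foot (phi F (v, t))) (phi F (v, t)) (fun s => Z (t + s)) (δ t))
    (hc : Continuous fun t => ip (gm e (v, t)) (δ t) (Z t)) :
    (1 / 2 : ℝ) * deriv (deriv (enT e T v Z)) 0 =
      -∫ t in (0 : ℝ)..T, ip (gm e (v, t)) (δ t) (Z t) := by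
  have hs := cd_sq2 F hZ
  have hm := cd_mx2 F hZ
  have h0 : deriv (enT e T v Z) = fun s =>
      ∫ t in (0 : ℝ)..T, d1 (sq2 (E := E) (po2 e v Z)) (s, t) := deriv_int_d1 hs 0 T
  have h0' : deriv (deriv (enT e T v Z)) 0 =
      ∫ t in (0 : ℝ)..T, d1 (d1 (sq2 (E := E) (po2 e v Z))) (0, t) := by
    rw [h0]
    exact congrFun (deriv_int_d1 (contDiff_d1' hs) 0 T) 0
  have h1 : ∀ t, d1 (d1 (sq2 (E := E) (po2 e v Z))) (0, t) =
      2 * d2 (d1 (mx2 (E := E) (po2 e v Z))) (0, t) - 2 * ip (gm e (v, t)) (δ t) (Z t) := by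
    intro t
    have h2 := second_field F hD hB (foot (phi F (v, t))) (phi F (v, t))
      (mem_extChartAt_source _) (X := fun s => Z (t + s)) (fa_shift F hZ t 0) (hδ t)
    rw [sq2_shift F hZ, mx2_shift F hZ, d1_shift, d1_shift, d1_shift, d2_shift] at h2
    beta_reduce at h2
    have h3 : ((0, t) + (0, 0) : ℝ × ℝ) = (0, t) := by simp
    rw [h3] at h2
    have h4 : ip (foot (phi F (v, t))) (δ t) (Z (t + 0)) = ip (gm e (v, t)) (δ t) (Z t) := by
      change ip (gm e (v, t)) (δ t) (Z (t + 0)) = _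
      rw [add_zero]
    rw [h4] at h2
    linarith
  have hper2 : ∀ a, mx2 (E := E) (po2 e v Z) (a, T) = mx2 (E := E) (po2 e v Z) (a, 0) :=
    mx2_perT F hT hZ hper
  have hper3 : d1 (mx2 (E := E) (po2 e v Z)) (0, T) = d1 (mx2 (E := E) (po2 e v Z)) (0, 0) := by
    rw [← deriv_d1 hm, ← deriv_d1 hm]
    exact congrArg (fun f => deriv f 0) (funext hper2)
  have c1 : Continuous fun t => d2 (d1 (mx2 (E := E) (po2 e v Z))) (0, t) :=
    (contDiff_d2' (contDiff_d1' hm)).continuous.comp (continuous_const.prodMk continuous_id)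
  rw [h0']
  simp only [h1]
  rw [intervalIntegral.integral_sub ((c1.const_mul 2).intervalIntegrable _ _)
    ((hc.const_mul 2).intervalIntegrable _ _), intervalIntegral.integral_const_mul,
    intervalIntegral.integral_const_mul, int_d2 (contDiff_d1' hm) hper3]
  ring

/-- a smooth function with vanishing first and negative second derivative at `0` -/
theorem le_of_concave {f : ℝ → ℝ} (hf : ContDiff ℝ ∞ f) (h1 : deriv f 0 = 0)
    (h2 : deriv (deriv f) 0 < 0) :
    ∃ c : ℝ, 0 < c ∧ ∃ r₀ : ℝ, 0 < r₀ ∧ ∀ r, |r| ≤ r₀ → f r ≤ f 0 - c * r ^ 2 := by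
  set c : ℝ := -deriv (deriv f) 0 / 4 with hc
  have hc0 : 0 < c := by rw [hc]; linarith
  set g : ℝ → ℝ := fun r => f r + c * r ^ 2 with hg
  have hgs : ContDiff ℝ ∞ g := hf.add (contDiff_const.mul (contDiff_id.pow 2))
  have hd1 : deriv g = fun r => deriv f r + c * (2 * r) := by
    funext r
    have k1 : HasDerivAt f (deriv f r) r := (hf.differentiable (by simp) r).hasDerivAt
    have k2 : HasDerivAt (fun x : ℝ => x ^ 2) (2 * r) r := by simpa using hasDerivAt_pow 2 r
    exact (k1.add (k2.const_mul c)).deriv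
  have hf1 : ContDiff ℝ ∞ (deriv f) := (contDiff_infty_iff_deriv.1 hf).2
  have hd2 : deriv (deriv g) 0 = deriv (deriv f) 0 + c * 2 := by
    rw [hd1]
    have k1 : HasDerivAt (deriv f) (deriv (deriv f) 0) 0 :=
      (hf1.differentiable (by simp) 0).hasDerivAt
    have k2 : HasDerivAt (fun x : ℝ => 2 * x) 2 0 := by
      simpa using (hasDerivAt_id (0 : ℝ)).const_mul 2
    exact (k1.add (k2.const_mul c)).deriv
  have hg1 : ContDiff ℝ ∞ (deriv g) := (contDiff_infty_iff_deriv.1 hgs).2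
  have hc2 : Continuous (deriv (deriv g)) := hg1.continuous_deriv (by simp)
  have hneg : deriv (deriv g) 0 < 0 := by
    rw [hd2, hc]
    linarith
  obtain ⟨δ, hδ, hδ'⟩ := Metric.eventually_nhds_iff.1
    (hc2.continuousAt.eventually (gt_mem_nhds hneg))
  refine ⟨c, hc0, δ / 2, half_pos hδ, fun r hr => ?_⟩
  rcases eq_or_ne r 0 with h | h
  · rw [h]
    simp
  have h3 : g r < g 0 := H766.lt_of_concave hgs (by rw [hd1]; simp [h1]) (δ := δ)
    (fun r hr => hδ' (by rw [Real.dist_eq, sub_zero]; exact hr)) h (by linarith)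
  simp only [hg] at h3
  have h4 : f r + c * r ^ 2 < f 0 + c * 0 ^ 2 := h3
  simp at h4
  linarith

end

end Vale.Agent.P231.S3V
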