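import Vale.Agent.P231.S3V.Neg2
import Vale.Agent.P231.S3V.VarT

/-!
# P231, stage 3, S3-B (3)(ii): negativity of the second variation for the weighted families, end
-/

set_option maxSynthPendingDepth 3
set_option linter.unusedSectionVars false
set_option linter.unusedVariables false

open Bundle Manifold Set Filter Module MeasureTheory
open scoped ContDiff Manifold Topology

namespace Vale.Agent.P231.S3V

noncomputable section

open Vale.Agent.P234 Vale.Agent.P231 Vale.Agent.P231.Fm Vale.Agent.P231.W Vale.Agent.P231.WR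
open Vale.Agent.P231.H775 Vale.Agent.P231.WC Vale.Agent.P231.S2N
open Vale.Agent.P231.S3E2 (Sc zF dF LF IsW kq kq_zero kq_D nm_pos2 int_dF_fld ip_sum_left2
  int_cos_even int_sin_even int_mode zF_add zF_smul fa_zF deriv2_sum)

variable {E : Type*} [NormedAddCommGroup E] [NormedSpace ℝ E]
  {M : Type*} [MetricSpace M] [ChartedSpace E M]
  [RiemannianBundle (fun x : M => TangentSpace 𝓘(ℝ, E) x)]
  {e : ∀ x : M, TangentSpace 𝓘(ℝ, E) x → M}
  [FiniteDimensional ℝ E] [IsManifold 𝓘(ℝ, E) ∞ M]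
  [IsContMDiffRiemannianBundle 𝓘(ℝ, E) ∞ E (fun x : M => TangentSpace 𝓘(ℝ, E) x)]
  [CompactSpace M] [ConnectedSpace M] [IsRiemannianManifold 𝓘(ℝ, E) M]

variable {D : ℝ} {v : UT E M} {F : Facts e} {ι : Type} [Fintype ι] [DecidableEq ι]

/-- the index form of a combination -/
theorem quad_LF {hD : 0 < D} {hB : InjGE e D} {hdiam : ∀ p q : M, dist p q ≤ D}
    {A B α β : ℝ → E} (h : LF F hD hB hdiam v A α) (h' : LF F hD hB hdiam v B β) (s t : ℝ) :
    ∫ τ in (0 : ℝ)..(2 * D), ip (gm e (v, τ)) (s • α τ + t • β τ) (s • A τ + t • B τ) =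
      s ^ 2 * (∫ τ in (0 : ℝ)..(2 * D), ip (gm e (v, τ)) (α τ) (A τ)) +
      2 * s * t * (∫ τ in (0 : ℝ)..(2 * D), ip (gm e (v, τ)) (β τ) (A τ)) +
      t ^ 2 * (∫ τ in (0 : ℝ)..(2 * D), ip (gm e (v, τ)) (β τ) (B τ)) := by
  have c1 := cont_fa F h.sfa h.fa
  have c2 := cont_fa F h.sfa h'.fa
  have c3 := cont_fa F h'.sfa h.fa
  have c4 := cont_fa F h'.sfa h'.fa
  have hg := h.green h'
  have hsplit : ∀ τ, ip (gm e (v, τ)) (s • α τ + t • β τ) (s • A τ + t • B τ) =
      (s ^ 2 * ip (gm e (v, τ)) (α τ) (A τ) + s * t * ip (gm e (v, τ)) (α τ) (B τ)) +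
      (s * t * ip (gm e (v, τ)) (β τ) (A τ) + t ^ 2 * ip (gm e (v, τ)) (β τ) (B τ)) := by
    intro τ
    rw [ip_add_left', ip_add_right', ip_add_right', ip_smul_left', ip_smul_left', ip_smul_right',
      ip_smul_right', ip_smul_left', ip_smul_left', ip_smul_right', ip_smul_right']
    ring
  have d1 : Continuous fun τ => s ^ 2 * ip (gm e (v, τ)) (α τ) (A τ) := continuous_const.mul c1
  have d2 : Continuous fun τ => s * t * ip (gm e (v, τ)) (α τ) (B τ) := continuous_const.mul c2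
  have d3 : Continuous fun τ => s * t * ip (gm e (v, τ)) (β τ) (A τ) := continuous_const.mul c3
  have d4 : Continuous fun τ => t ^ 2 * ip (gm e (v, τ)) (β τ) (B τ) := continuous_const.mul c4
  have d12 : Continuous fun τ => s ^ 2 * ip (gm e (v, τ)) (α τ) (A τ) +
      s * t * ip (gm e (v, τ)) (α τ) (B τ) := d1.add d2
  have d34 : Continuous fun τ => s * t * ip (gm e (v, τ)) (β τ) (A τ) +
      t ^ 2 * ip (gm e (v, τ)) (β τ) (B τ) := d3.add d4
  simp only [hsplit]
  rw [intervalIntegral.integral_add (d12.intervalIntegrable _ _)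
    (d34.intervalIntegrable _ _),
    intervalIntegral.integral_add (d1.intervalIntegrable _ _) (d2.intervalIntegrable _ _),
    intervalIntegral.integral_add (d3.intervalIntegrable _ _) (d4.intervalIntegrable _ _),
    intervalIntegral.integral_const_mul, intervalIntegral.integral_const_mul,
    intervalIntegral.integral_const_mul, intervalIntegral.integral_const_mul, hg]
  ring

variable {hD : 0 < D} {hB : InjGE e D} {hdiam : ∀ p q : M, dist p q ≤ D} {l : ℕ}
  {X δ : ι → UT E M → E} {ε : ℝ} {W : ι → UT E M → E} {μ : ℝ → ℝ}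

theorem int_zero_US (hW : ∀ i, LS e D (W i)) (v : UT E M) {C : ℝ → EuclideanSpace ℝ ι}
    (hC : ∀ t, C t = 0) :
    ∫ t in (0 : ℝ)..(2 * D), ip (gm e (v, t)) (dF F hD hB hdiam v (US F W v C) t)
      (zF F D v (US F W v C) t) = 0 := by
  have e1 : ∀ s, US F W v C s = 0 := by
    intro s
    unfold US
    rw [hC]
    exact wv_zero W _
  have e2 : ∀ t, zF F D v (US F W v C) t = 0 := by
    intro t
    have k := zF_smul (F := F) (D := D) (v := v) 0 (US F W v C) t
    have e3 : (fun s => (0 : ℝ) • US F W v C s) = US F W v C := by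
      funext s
      rw [zero_smul, e1]
    rw [e3, zero_smul] at k
    exact k
  simp only [e2]
  have hz : ∀ (p : M) (a : E), ip p a (0 : E) = 0 := fun p a =>
    inner_zero_right (E := TangentSpace 𝓘(ℝ, E) p) (𝕜 := ℝ) _
  simp only [hz]
  simp

/-- the densities -/
theorem contDiff_dens (hμ : TM D μ) {B : ℝ → EuclideanSpace ℝ ι} (hB : ContDiff ℝ ∞ B) :
    ContDiff ℝ ∞ fun s => deriv μ s • B (μ s) := by
  have hdμ : ContDiff ℝ ∞ (deriv μ) := (contDiff_infty_iff_deriv.1 hμ.sm).2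
  exact hdμ.smul (hB.comp hμ.sm)

theorem dens_per (hμ : TM D μ) {B : ℝ → EuclideanSpace ℝ ι} {σ : ℝ}
    (hB : ∀ τ, B (τ + 2 * D) = σ • B τ) (s : ℝ) :
    deriv μ (s + 2 * D) • B (μ (s + 2 * D)) = σ • (deriv μ s • B (μ s)) := by
  have e1 : s + 2 * D = s + D + D := by ring
  rw [hμ.per2, hB, e1, hμ.deriv_per, hμ.deriv_per, smul_comm]

/-- the family of fields -/
def Zth (F : Facts e) (D : ℝ) (X W : ι → UT E M → E) (μ : ℝ → ℝ) (θ : ℝ) (v : UT E M)
    (a x y : EuclideanSpace ℝ ι) (t : ℝ) : E :=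
  ((1 - θ) • XX X a (phi F (v, t)) + θ • ZC F D W v (fun s => deriv μ s • a) t) +
    ZC F D W v (fun s => deriv μ s • Bz D x y (μ s)) t

theorem fa_Zth (hX : ∀ i, Fld (X i)) (hW : ∀ i, LS e D (W i)) (hμ : TM D μ) (θ : ℝ) (v : UT E M)
    (a x y : EuclideanSpace ℝ ι) (t : ℝ) : FA e v (Zth F D X W μ θ v a x y) t := by
  have h1 : Fld (XX X a) := Fld.sum Finset.univ fun i => (hX i).const_smul (a i)
  have h2 : ∀ t, FA e v (ZC F D W v (fun s => deriv μ s • a)) t :=
    fa_zF (sc_US (F := F) hW v (contDiff_dens hμ (B := fun _ => a) contDiff_const)).fa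
  have h3 : ∀ t, FA e v (ZC F D W v (fun s => deriv μ s • Bz D x y (μ s))) t :=
    fa_zF (sc_US (F := F) hW v (contDiff_dens hμ (contDiff_Bz x y))).fa
  exact (((h1.fa F v t).smul (1 - θ)).add ((h2 t).smul θ)).add (h3 t)

/-- **negativity of the second variation of the energy over the double period** -/
theorem neg_th
    (hP : ∀ x y : M, dist x y = D → finrank ℝ (H775.Pl e D x y) = l + 1)
    (hf : Fam F hD hB hdiam l X δ ε) (hW : IsW F hD hB hdiam X δ ε W) (hμ : TM D μ) {θ : ℝ}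
    (hθ0 : 0 ≤ θ) (hθ1 : θ ≤ 1) (v : UT E M)
    {a x y : EuclideanSpace ℝ ι} (ha : Pm F D X δ ε v a = a) (hx : Pm F D X δ ε v x = x)
    (hy : Pm F D X δ ε v y = y) (hne : a ≠ 0 ∨ x ≠ 0 ∨ y ≠ 0) :
    deriv (S3E2.enT e (4 * D) v (Zth F D X W μ θ v a x y)) 0 = 0 ∧
      deriv (deriv (S3E2.enT e (4 * D) v (Zth F D X W μ θ v a x y))) 0 < 0 := by
  have hSa : Sc F D v (US F W v fun s => deriv μ s • a) :=
    sc_US hW.ls v (contDiff_dens hμ (B := fun _ => a) contDiff_const)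
  have hSz : Sc F D v (US F W v fun s => deriv μ s • Bz D x y (μ s)) :=
    sc_US hW.ls v (contDiff_dens hμ (contDiff_Bz x y))
  have hpa : ∀ t, US F W v (fun s => deriv μ s • a) (t + 2 * D) =
      US F W v (fun s => deriv μ s • a) t := by
    intro t
    have k := US_per (F := F) hD hB hdiam W v (C := fun s => deriv μ s • a) (σ := 1)
      (fun t => dens_per hμ (B := fun _ => a) (fun τ => (one_smul ℝ a).symm) t) t
    rw [one_smul] at k
    exact k
  have hanti := US_per (F := F) hD hB hdiam W v (C := fun s => deriv μ s • Bz D x y (μ s))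
    (dens_per hμ (Bz_per hD x y))
  have hY1 : LF F hD hB hdiam v (fun t => XX X a (phi F (v, t))) (fun t => XX δ a (phi F (v, t))) :=
    LF.of_DF (DF.xx hf.df a) v
  have hY2 : LF F hD hB hdiam v (zF F D v (US F W v fun s => deriv μ s • a))
      (dF F hD hB hdiam v (US F W v fun s => deriv μ s • a)) := LF.of_Sc hP hSa hpa
  have hY := (hY1.smul (1 - θ)).add (hY2.smul θ)
  obtain ⟨k1, k2⟩ := deriv2_sum hP hY hSz hanti
  refine ⟨k1, ?_⟩
  have k3 : (1 / 2 : ℝ) * deriv (deriv (S3E2.enT e (4 * D) v (Zth F D X W μ θ v a x y))) 0 =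
      _ := k2
  have kq := quad_LF hY1 hY2 (1 - θ) θ
  rw [kq] at k3
  have h4 := hf.neg v ha
  rw [inner_Qm_self F (fun i => (hf.df i).fld) (fun i => (hf.df i).sfld)] at h4
  have h5 : nI F D (XX δ a) (XX X a) v =
      ∫ t in (0 : ℝ)..(2 * D), ip (gm e (v, t)) (XX δ a (phi F (v, t))) (XX X a (phi F (v, t))) :=
    rfl
  rw [h5] at h4
  have h6 := hf.eps_pos v
  set A := ∫ t in (0 : ℝ)..(2 * D), ip (gm e (v, t)) (XX δ a (phi F (v, t)))
    (XX X a (phi F (v, t))) with hA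
  set R := ∫ t in (0 : ℝ)..(2 * D), ip (gm e (v, t))
    (dF F hD hB hdiam v (US F W v fun s => deriv μ s • a) t) (XX X a (phi F (v, t))) with hR
  set P := ∫ t in (0 : ℝ)..(2 * D), ip (gm e (v, t))
    (dF F hD hB hdiam v (US F W v fun s => deriv μ s • a) t)
    (zF F D v (US F W v fun s => deriv μ s • a) t) with hP'
  set Q := ∫ t in (0 : ℝ)..(2 * D), ip (gm e (v, t))
    (dF F hD hB hdiam v (US F W v fun s => deriv μ s • Bz D x y (μ s)) t)
    (zF F D v (US F W v fun s => deriv μ s • Bz D x y (μ s)) t) with hQ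
  have hAn : 0 ≤ A := by nlinarith only [h4, h6, sq_nonneg ‖a‖]
  have hRn : 0 ≤ R := by
    rw [hR, int_dF_fld hD hB hdiam hP hSa hpa (DF.xx hf.df a).fld]
    refine intervalIntegral.integral_nonneg (by linarith) fun t _ => ?_
    rw [ip_US hW v _ ha t]
    refine Finset.sum_nonneg fun i _ => ?_
    rw [PiLp.smul_apply, smul_eq_mul]
    have e1 : deriv μ t * a i * a i = deriv μ t * (a i * a i) := by ring
    rw [e1]
    exact mul_nonneg (hμ.pos t).le (mul_self_nonneg _)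
  have hPp : a ≠ 0 → 0 < P := fun h => pos_a hP hf hW v hμ ha h
  have hPn : 0 ≤ P := by
    by_cases h : a = 0
    · rw [hP', int_zero_US hW.ls v (fun t => by rw [h, smul_zero])]
    · exact (hPp h).le
  have hQp : x ≠ 0 ∨ y ≠ 0 → 0 < Q := fun h => pos_z hP hf hW v hμ hx hy h
  have hQn : 0 ≤ Q := by
    by_cases h : x ≠ 0 ∨ y ≠ 0
    · exact (hQp h).le
    · push Not at h
      rw [hQ, int_zero_US hW.ls v (fun t => by
        unfold Bz
        rw [h.1, h.2, smul_zero, smul_zero, sub_zero, smul_zero])]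
  have hs : 0 ≤ 1 - θ := by linarith
  have m1 : 0 ≤ (1 - θ) ^ 2 * A := mul_nonneg (sq_nonneg _) hAn
  have m2 : 0 ≤ 2 * (1 - θ) * θ * R := mul_nonneg (mul_nonneg (by linarith) hθ0) hRn
  have m3 : 0 ≤ θ ^ 2 * P := mul_nonneg (sq_nonneg _) hPn
  have hfin : 0 < (1 - θ) ^ 2 * A + 2 * (1 - θ) * θ * R + θ ^ 2 * P + Q := by
    by_cases hxy : x ≠ 0 ∨ y ≠ 0
    · have := hQp hxy
      linarith
    · push Not at hxy
      have h7 : a ≠ 0 := by
        rcases hne with h | h | h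
        · exact h
        · exact absurd hxy.1 h
        · exact absurd hxy.2 h
      have h8 := norm_pos_iff.2 h7
      have h9 : 0 < 2 * ε * ‖a‖ ^ 2 := by positivity
      have hAp : 0 < A := by linarith
      by_cases hθ : θ = 0
      · have m4 : 0 < (1 - θ) ^ 2 * A := by
          rw [hθ]
          linarith
        linarith
      · have m4 : 0 < θ ^ 2 * P := mul_pos (by positivity) (hPp h7)
        linarith
  linarith

/-- the energy of the curves of the family decreases quadratically -/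
theorem en_th
    (hP : ∀ x y : M, dist x y = D → finrank ℝ (H775.Pl e D x y) = l + 1)
    (hf : Fam F hD hB hdiam l X δ ε) (hW : IsW F hD hB hdiam X δ ε W) (hμ : TM D μ) {θ : ℝ}
    (hθ0 : 0 ≤ θ) (hθ1 : θ ≤ 1) (v : UT E M)
    {a x y : EuclideanSpace ℝ ι} (ha : Pm F D X δ ε v a = a) (hx : Pm F D X δ ε v x = x)
    (hy : Pm F D X δ ε v y = y) (hne : a ≠ 0 ∨ x ≠ 0 ∨ y ≠ 0) :
    ∃ c : ℝ, 0 < c ∧ ∃ r₀ : ℝ, 0 < r₀ ∧ ∀ r, |r| ≤ r₀ →
      S3E2.enT e (4 * D) v (Zth F D X W μ θ v a x y) r ≤ 4 * D - c * r ^ 2 := by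
  have h1 := neg_th hP hf hW hμ hθ0 hθ1 v ha hx hy hne
  have h2 : ContDiff ℝ ∞ (S3E2.enT e (4 * D) v (Zth F D X W μ θ v a x y)) :=
    contDiff_enT F (fa_Zth (fun i => (hf.df i).fld) hW.ls hμ θ v a x y)
  have h3 := le_of_concave h2 h1.1 h1.2
  rw [S3E2.enT_zero F] at h3
  exact h3

/-- the density with the coordinates `(a, x, y)` -/
def Cd (D : ℝ) (μ : ℝ → ℝ) (a x y : EuclideanSpace ℝ ι) (s : ℝ) : EuclideanSpace ℝ ι :=
  deriv μ s • (a + Bz D x y (μ s))

theorem contDiff_Cd (hμ : TM D μ) (a x y : EuclideanSpace ℝ ι) : ContDiff ℝ ∞ (Cd D μ a x y) :=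
  contDiff_dens hμ (B := fun τ => a + Bz D x y τ) (contDiff_const.add (contDiff_Bz x y))

theorem ZC_Cd (hW : ∀ i, LS e D (W i)) (hμ : TM D μ) (v : UT E M) (a x y : EuclideanSpace ℝ ι) :
    ZC F D W v (Cd D μ a x y) = Zth F D X W μ 1 v a x y := by
  funext t
  have hSa : Sc F D v (US F W v fun s => deriv μ s • a) :=
    sc_US hW v (contDiff_dens hμ (B := fun _ => a) contDiff_const)
  have hSz : Sc F D v (US F W v fun s => deriv μ s • Bz D x y (μ s)) :=
    sc_US hW v (contDiff_dens hμ (contDiff_Bz x y))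
  have h1 := zF_add (F := F) (D := D) hSa.fa hSz.fa t
  have h2 := US_add (F := F) W v (fun s => deriv μ s • a) fun s => deriv μ s • Bz D x y (μ s)
  have h3 : (Cd D μ a x y) = fun s => deriv μ s • a + deriv μ s • Bz D x y (μ s) := by
    funext s
    unfold Cd
    rw [smul_add]
  unfold Zth ZC
  rw [sub_self, zero_smul, zero_add, one_smul, h3, h2, h1]

/-- **negativity for the weighted superpositions** -/
theorem neg_ZC
    (hP : ∀ x y : M, dist x y = D → finrank ℝ (H775.Pl e D x y) = l + 1)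
    (hf : Fam F hD hB hdiam l X δ ε) (hW : IsW F hD hB hdiam X δ ε W) (hμ : TM D μ) (v : UT E M)
    {a x y : EuclideanSpace ℝ ι} (ha : Pm F D X δ ε v a = a) (hx : Pm F D X δ ε v x = x)
    (hy : Pm F D X δ ε v y = y) (hne : a ≠ 0 ∨ x ≠ 0 ∨ y ≠ 0) :
    deriv (S3E2.enT e (4 * D) v (ZC F D W v (Cd D μ a x y))) 0 = 0 ∧
    deriv (deriv (S3E2.enT e (4 * D) v (ZC F D W v (Cd D μ a x y)))) 0 < 0 ∧
    ∃ c : ℝ, 0 < c ∧ ∃ r₀ : ℝ, 0 < r₀ ∧ ∀ r, |r| ≤ r₀ →
      S3E2.enT e (4 * D) v (ZC F D W v (Cd D μ a x y)) r ≤ 4 * D - c * r ^ 2 := by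
  rw [ZC_Cd (X := X) hW.ls hμ]
  exact ⟨(neg_th hP hf hW hμ zero_le_one le_rfl v ha hx hy hne).1,
    (neg_th hP hf hW hμ zero_le_one le_rfl v ha hx hy hne).2,
    en_th hP hf hW hμ zero_le_one le_rfl v ha hx hy hne⟩

end

end Vale.Agent.P231.S3V
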