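import Vale.Agent.P231.S3V.Neg3
import Vale.Agent.P231.S3E2.Stat
import Vale.Agent.P231.S3E2.Inv
import Vale.Agent.P231.S3B3.Src

/-!
# P231, stage 3, S3-B (3)(ii): smoothness of the weighted families; the fields of kernel vectors
-/

set_option maxSynthPendingDepth 3
set_option linter.unusedSectionVars false
set_option linter.unusedVariables false

open Bundle Manifold Set Filter Module MeasureTheory
open scoped ContDiff Manifold Topology

namespace Vale.Agent.P231.S3V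

noncomputable section

open Vale.Agent.P234 Vale.Agent.P231 Vale.Agent.P231.Fm Vale.Agent.P231.W Vale.Agent.P231.WR
open Vale.Agent.P231.H775 Vale.Agent.P231.WC Vale.Agent.P231.S2N
open Vale.Agent.P231.S3E2 (Sc zF dF LF IsW kq kq_zero kq_D nm_pos2 int_dF_fld ip_sum_left2
  int_cos_even int_sin_even int_mode zF_add zF_smul fa_zF deriv2_sum)

variable {E : Type*} [NormedAddCommGroup E] [NormedSpace ℝ E]
  {M : Type*} [MetricSpace M] [ChartedSpace E M]
  [RiemannianBundle (fun x : M => TangentSpace 𝓘(ℝ, E) x)]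
  {e : ∀ x : M, TangentSpace 𝓘(ℝ, E) x → M}
  [FiniteDimensional ℝ E] [IsManifold 𝓘(ℝ, E) ∞ M]
  [IsContMDiffRiemannianBundle 𝓘(ℝ, E) ∞ E (fun x : M => TangentSpace 𝓘(ℝ, E) x)]
  [CompactSpace M] [ConnectedSpace M] [IsRiemannianManifold 𝓘(ℝ, E) M]

variable {D : ℝ} {v : UT E M} {ι : Type} [Fintype ι] [DecidableEq ι]

section Plots

variable {E' : Type} [NormedAddCommGroup E'] [NormedSpace ℝ E'] [FiniteDimensional ℝ E']

/-- Jacobi fields along plots -/
theorem at_Jv (F : Facts e) {V : E' → UT E M} {w : E' → E} {ρ : E' → ℝ} {x : E'}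
    (hV : (dUT E M).At V x) (hw : (dTM E M).At (fun s => tb (foot (V s)) (w s)) x)
    (hρ : Sm ρ x) :
    (dTM E M).At (fun s => tb (gm e (V s, ρ s)) (Jc e (V s) (w s) (ρ s))) x := by
  have h1 : ∀ᶠ s in 𝓝 x, SmV (fun s => foot (V s)) (fun s => tv (V s)) s := hV
  let w' : ∀ s, TangentSpace 𝓘(ℝ, E) (foot (V s)) := fun s => w s
  have h2 : ∀ᶠ s in 𝓝 x, SmV (fun s => foot (V s)) w' s := hw
  let u' : ∀ s, TangentSpace 𝓘(ℝ, E) (foot (V s)) := fun s => ρ s • tv (V s)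
  have h4 : ∀ᶠ s in 𝓝 x, SmV (fun s => foot (V s)) u' s := by
    filter_upwards [h1, hρ] with s h3 h5
    exact h3.smul h5
  have key : ∀ᶠ s in 𝓝 x, ContMDiffAt 𝓘(ℝ, E') 𝓘(ℝ, E).tangent ∞
      (fun s => tb (gm e (V s, ρ s)) (dE e (foot (V s)) (ρ s • vec' (V s)) (w s))) s := by
    filter_upwards [eventually_eventually_nhds.2 h4, eventually_eventually_nhds.2 h2] with s h5 h6
    exact H583.smV_dE F.isExp h5 h6
  have h6 := at_smul (f := fun s => gm e (V s, ρ s)) hρ key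
  have h7 : (fun s => tb (gm e (V s, ρ s)) (Jc e (V s) (w s) (ρ s))) =
      fun s => tb (gm e (V s, ρ s)) (ρ s • dE e (foot (V s)) (ρ s • vec' (V s)) (w s)) := by
    funext s
    exact tb_congr rfl (Jc_eq F _ _ _)
  rw [h7]
  exact h6

/-- the kernel vectors with smooth coordinates are smooth -/
theorem at_wv {W : ι → UT E M → E} (hW : ∀ i, LS e D (W i)) {u : E' → UT E M}
    {c : E' → EuclideanSpace ℝ ι} {x : E'} (hu : (dUT E M).At u x) (hc : Sm c x) :
    (dTM E M).At (fun s => tb (foot (u s)) (wv W (u s) (c s))) x :=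
  at_sum' Finset.univ (f := fun s => foot (u s)) (at_zero hu) fun i =>
    at_smul (f := fun s => foot (u s)) (sm_coord hc i) ((hW i).fld.map hu)

/-- **the fields `ZC` are smooth** -/
theorem at_ZC (F : Facts e) {W : ι → UT E M → E} (hW : ∀ i, LS e D (W i)) {u : E' → UT E M}
    {τ : E' → ℝ} {C : E' → ℝ → EuclideanSpace ℝ ι} {x : E'} (hu : (dUT E M).At u x)
    (hτ : Sm τ x)
    (hC : ∀ᶠ s in 𝓝 x, ∀ t : ℝ, Sm (fun p : E' × ℝ => C p.1 p.2) (s, t)) :
    (dTM E M).At (fun s => tb (gm e (u s, τ s)) (ZC F D W (u s) (C s) (τ s))) x := by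
  have hf : ∀ᶠ s in 𝓝 x, ContMDiffAt 𝓘(ℝ, E') 𝓘(ℝ, E) ∞ (fun s => gm e (u s, τ s)) s :=
    map_gm F (u := fun s => (u s, τ s)) ⟨hu, hτ⟩
  have h1 := (dUT E M).open' hu
  have key : ∀ᶠ s in 𝓝 x, ContMDiffAt 𝓘(ℝ, E') 𝓘(ℝ, E).tangent ∞
      (fun s => tb (gm e (u s, τ s)) (ZC F D W (u s) (C s) (τ s))) s := by
    filter_upwards [eventually_eventually_nhds.2 hf, eventually_eventually_nhds.2 h1,
      eventually_eventually_nhds.2 (eventually_eventually_nhds.2 hτ),
      eventually_eventually_nhds.2 hC] with s h2 h3 h4 h5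
    refine H583.smV_integral D h2 ?_
    filter_upwards [h3, h4, h5] with s' h6 h7 h8 r
    have k1 : (dUT E M).At (fun p : E' × ℝ => u p.1) (s', r) :=
      (dUT E M).comp (u := u) (g := Prod.fst) (x := (s', r)) h6 (Sm.of_contDiff contDiff_fst _)
    have k2 : Sm (fun p : E' × ℝ => τ p.1 - p.2) (s', r) := by
      have k3 : Sm (fun p : E' × ℝ => τ p.1) (s', r) :=
        Sm.comp (f := τ) (g := Prod.fst) h7 (Sm.of_contDiff contDiff_fst _)
      have k4 : Sm (fun p : E' × ℝ => p.2) (s', r) := Sm.of_contDiff contDiff_snd _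
      filter_upwards [k3, k4] with p g1 g2
      exact g1.sub g2
    have k5 : (dUT E M).At (fun p : E' × ℝ => phi F (u p.1, τ p.1 - p.2)) (s', r) :=
      map_phi F (u := fun p : E' × ℝ => (u p.1, τ p.1 - p.2)) ⟨k1, k2⟩
    have k6 : Sm (fun p : E' × ℝ => C p.1 (τ p.1 - p.2)) (s', r) :=
      Sm.comp (f := fun p : E' × ℝ => C p.1 p.2) (g := fun p : E' × ℝ => (p.1, τ p.1 - p.2))
        (h8 (τ s' - r)) (Sm.prodMk (Sm.of_contDiff contDiff_fst _) k2)
    have k7 := at_wv hW k5 k6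
    have k8 := at_Jv F k5 k7 (ρ := fun p : E' × ℝ => p.2) (Sm.of_contDiff contDiff_snd _)
    have k9 := Filter.Eventually.self_of_nhds k8
    refine ContMDiffAt.congr_of_eventuallyEq k9 ?_
    refine Eventually.of_forall fun p => tb_congr ?_ rfl
    show gm e (u p.1, τ p.1) = gm e (phi F (u p.1, τ p.1 - p.2), p.2)
    rw [gm_phi F, sub_add_cancel]
  exact key

end Plots

/-- smoothness of the densities -/
theorem sm_Cd {E' : Type} [NormedAddCommGroup E'] [NormedSpace ℝ E'] [FiniteDimensional ℝ E']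
    {μ : E' → ℝ → ℝ} {τ : E' → ℝ} {a x y : E' → EuclideanSpace ℝ ι} {s : E'}
    (hμ : Sm (fun p => μ p (τ p)) s) (hμ' : Sm (fun p => deriv (μ p) (τ p)) s)
    (ha : Sm a s) (hx : Sm x s) (hy : Sm y s) :
    Sm (fun p => Cd D (μ p) (a p) (x p) (y p) (τ p)) s := by
  filter_upwards [hμ, hμ', ha, hx, hy] with p h1 h2 h3 h4 h5
  have h6 : ContDiffAt ℝ ∞ (fun p => Real.pi / (2 * D) * μ p (τ p)) p := contDiffAt_const.mul h1
  have h7 : ContDiffAt ℝ ∞ (fun p => Real.cos (Real.pi / (2 * D) * μ p (τ p))) p :=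
    (Real.contDiff_cos.contDiffAt).comp p h6
  have h8 : ContDiffAt ℝ ∞ (fun p => Real.sin (Real.pi / (2 * D) * μ p (τ p))) p :=
    (Real.contDiff_sin.contDiffAt).comp p h6
  exact h2.smul (h3.add ((h7.smul h4).sub (h8.smul h5)))

variable {F : Facts e} {W : ι → UT E M → E}

/-- linearity -/
theorem ZC_add (hW : ∀ i, LS e D (W i)) (v : UT E M) {C C' : ℝ → EuclideanSpace ℝ ι}
    (hC : ContDiff ℝ ∞ C) (hC' : ContDiff ℝ ∞ C') (t : ℝ) :
    ZC F D W v (fun s => C s + C' s) t = ZC F D W v C t + ZC F D W v C' t := by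
  unfold ZC
  rw [US_add]
  exact zF_add (sc_US (F := F) hW v hC).fa (sc_US (F := F) hW v hC').fa t

theorem ZC_smul (W : ι → UT E M → E) (v : UT E M) (k : ℝ) (C : ℝ → EuclideanSpace ℝ ι) (t : ℝ) :
    ZC F D W v (fun s => k • C s) t = k • ZC F D W v C t := by
  unfold ZC
  rw [US_smul W v (fun _ => k) C]
  exact zF_smul k _ t

/-- the periodicity -/
theorem ZC_per (hD : 0 < D) (hB : InjGE e D) (hdiam : ∀ p q : M, dist p q ≤ D)
    (W : ι → UT E M → E) (v : UT E M) {C : ℝ → EuclideanSpace ℝ ι}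
    (hC : ∀ s, C (s + 4 * D) = C s) (t : ℝ) :
    ZC F D W v C (t + 4 * D) = ZC F D W v C t := by
  unfold ZC zF
  refine intervalIntegral.integral_congr fun r _ => ?_
  have e1 : t + 4 * D - r = t - r + 4 * D := by ring
  have e2 : phi F (v, t - r + 4 * D) = phi F (v, t - r) := by
    rw [← phi_add]
    exact S3E2.phi_per4 F hD hB hdiam _
  simp only [e1, e2]
  unfold US
  rw [e2, hC]

theorem ZC_perp (hW : ∀ i, LS e D (W i)) (v : UT E M) {C : ℝ → EuclideanSpace ℝ ι}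
    (hC : ContDiff ℝ ∞ C) (t : ℝ) :
    ip (gm e (v, t)) (vec' (phi F (v, t))) (ZC F D W v C t) = 0 :=
  S3E2.perp_zF (sc_US hW v hC) t

/-- the change of the origin -/
theorem ZC_shift (W : ι → UT E M → E) (v : UT E M) (C : ℝ → EuclideanSpace ℝ ι) (s t : ℝ) :
    ZC F D W (phi F (v, s)) (fun τ => C (s + τ)) t = ZC F D W v C (s + t) := by
  have h := S3E2.zF_shift (F := F) (D := D) v (US F W v C) s t
  unfold ZC
  rw [← h]
  congr 1
  funext τ
  unfold US
  rw [phi_add]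

theorem Cd_per {μ : ℝ → ℝ} (hD : 0 < D) (hμ : TM D μ) (a x y : EuclideanSpace ℝ ι) (s : ℝ) :
    Cd D μ a x y (s + 4 * D) = Cd D μ a x y s := by
  have e1 : s + 4 * D = s + D + D + D + D := by ring
  have e2 : μ (s + 4 * D) = μ s + 2 * D + 2 * D := by
    rw [e1, hμ.per, hμ.per, hμ.per, hμ.per]
    ring
  unfold Cd
  rw [e2, Bz_per hD, Bz_per hD, smul_smul]
  have e3 : deriv μ (s + 4 * D) = deriv μ s := by
    rw [e1, hμ.deriv_per, hμ.deriv_per, hμ.deriv_per, hμ.deriv_per]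
  rw [e3]
  norm_num

theorem Cd_smul {μ : ℝ → ℝ} (k : ℝ) (a x y : EuclideanSpace ℝ ι) (s : ℝ) :
    Cd D μ (k • a) (k • x) (k • y) s = k • Cd D μ a x y s := by
  unfold Cd Bz
  module

theorem Cd_add {μ : ℝ → ℝ} (a x y a' x' y' : EuclideanSpace ℝ ι) (s : ℝ) :
    Cd D μ (a + a') (x + x') (y + y') s = Cd D μ a x y s + Cd D μ a' x' y' s := by
  unfold Cd Bz
  module

/-! ### the kernel vectors of the family -/

variable {l : ℕ} {X δ : ι → UT E M → E} {ε : ℝ}

theorem Tm_half (F : Facts e) (hD : 0 < D) (hB : InjGE e D) (hdiam : ∀ p q : M, dist p q ≤ D)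
    (X : ι → UT E M → E) (v : UT E M) :
    Tm F hD hB hdiam X (phi F (v, D)) = Tm F hD hB hdiam X v := by
  unfold Tm
  refine Finset.sum_congr rfl fun i _ => Finset.sum_congr rfl fun j _ => ?_
  congr 1
  rw [Th0_half F hD hB hdiam, Th0_half F hD hB hdiam]
  have h1 := ip_Tr_of_mem F hD hB hdiam (Th0_mem F hD hB hdiam (X i) v)
    (Th0_mem F hD hB hdiam (X j) v)
  rw [← h1]
  have h2 : ∀ (p : M) (a b : E), ip p (-a) (-b) = ip p a b := by
    intro p a b
    rw [ip_neg_right', ip_comm', ip_neg_right', ip_comm', neg_neg]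
  exact h2 _ _ _

theorem Gm_half (F : Facts e) (hD : 0 < D) (hB : InjGE e D) (hdiam : ∀ p q : M, dist p q ≤ D)
    (X δ : ι → UT E M → E) (ε : ℝ) (v : UT E M) :
    S2N.Gm F hD hB hdiam X δ ε (phi F (v, D)) = S2N.Gm F hD hB hdiam X δ ε v := by
  unfold S2N.Gm
  rw [Fam.Pm_phi F hD hB hdiam, Tm_half]

theorem Wi_half (F : Facts e) (hD : 0 < D) (hB : InjGE e D) (hdiam : ∀ p q : M, dist p q ≤ D)
    (X δ : ι → UT E M → E) (ε : ℝ) (i : ι) (v : UT E M) :
    S3E2.Wi F hD hB hdiam X δ ε i (phi F (v, D)) =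
      -Tr F hD hB hdiam v (S3E2.Wi F hD hB hdiam X δ ε i v) := by
  unfold S3E2.Wi
  have h1 : S3E2.wm F hD hB hdiam X δ ε i (phi F (v, D)) = S3E2.wm F hD hB hdiam X δ ε i v := by
    unfold S3E2.wm
    rw [Fam.Pm_phi F hD hB hdiam, Gm_half]
  rw [h1]
  exact Th0_half F hD hB hdiam _ v

theorem wv_half (F : Facts e) (hD : 0 < D) (hB : InjGE e D) (hdiam : ∀ p q : M, dist p q ≤ D)
    (X δ : ι → UT E M → E) (ε : ℝ) (v : UT E M) (c : EuclideanSpace ℝ ι) :
    wv (S3E2.Wi F hD hB hdiam X δ ε) (phi F (v, D)) c =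
      -Tr F hD hB hdiam v (wv (S3E2.Wi F hD hB hdiam X δ ε) v c) := by
  unfold wv
  rw [← TrL_apply, map_sum, ← Finset.sum_neg_distrib]
  refine Finset.sum_congr rfl fun i _ => ?_
  rw [map_smul, TrL_apply, Wi_half, smul_neg]

/-- **29's structure for the inverse adjoint** -/
theorem src_wv (F : Facts e) (hD : 0 < D) (hB : InjGE e D) (hdiam : ∀ p q : M, dist p q ≤ D)
    (hP : ∀ x y : M, dist x y = D → finrank ℝ (H775.Pl e D x y) = l + 1)
    (h : Fam F hD hB hdiam l X δ ε) :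
    S3B3.Src F hD hB hdiam (Pm F D X δ ε) (wv (S3E2.Wi F hD hB hdiam X δ ε)) where
  add u c c' := wv_add _ u c c'
  smul u k c := wv_smul _ u k c
  mem u c := Submodule.sum_mem _ fun i _ => Submodule.smul_mem _ _
    (mem_Lf.2 ⟨(S3E2.ls_Wi hP h i).mem u, (S3E2.ls_Wi hP h i).orth u⟩)
  smooth hu hc := at_wv (S3E2.ls_Wi hP h) hu hc
  half u c _ := wv_half F hD hB hdiam X δ ε u c
  inj u c hc h0 := S3E2.Wi_inj hP h u hc h0
  P_phi u t := Fam.Pm_phi F hD hB hdiam X δ ε u t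

end

end Vale.Agent.P231.S3V
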