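import Vale.Agent.P231.S2N.IndexLe
import Vale.Agent.P231.H583.Pairing

/-!
# P231, stage 3, S3-B (3)(ii): the antisymmetry of the Jacobi propagator
-/

set_option maxSynthPendingDepth 3
set_option linter.unusedSectionVars false
set_option linter.unusedVariables false

open Bundle Manifold Set Filter Module MeasureTheory
open scoped ContDiff Manifold Topology Matrix

namespace Vale.Agent.P231.S3V

noncomputable section

open Vale.Agent.P234 Vale.Agent.P231 Vale.Agent.P231.Fm Vale.Agent.P231.W Vale.Agent.P231.WR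
open Vale.Agent.P231.H775 Vale.Agent.P231.WC Vale.Agent.P231.S2N

variable {E : Type*} [NormedAddCommGroup E] [NormedSpace ℝ E]
  {M : Type*} [MetricSpace M] [ChartedSpace E M]
  [RiemannianBundle (fun x : M => TangentSpace 𝓘(ℝ, E) x)]
  {e : ∀ x : M, TangentSpace 𝓘(ℝ, E) x → M}
  [FiniteDimensional ℝ E] [IsManifold 𝓘(ℝ, E) ∞ M]
  [IsContMDiffRiemannianBundle 𝓘(ℝ, E) ∞ E (fun x : M => TangentSpace 𝓘(ℝ, E) x)]
  [CompactSpace M] [ConnectedSpace M] [IsRiemannianManifold 𝓘(ℝ, E) M]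

variable {D : ℝ}

/-- **antisymmetry of the Jacobi propagator** -/
theorem jf_anti (F : Facts e) (hD : 0 < D) (hB : InjGE e D) (hdiam : ∀ p q : M, dist p q ≤ D)
    (v : UT E M) (s t : ℝ) {a c : E}
    (ha : ip (foot (phi F (v, t))) (vec' (phi F (v, t))) a = 0)
    (hc : ip (foot (phi F (v, s))) (vec' (phi F (v, s))) c = 0) :
    ip (gm e (v, t)) a (Jc e (phi F (v, s)) c (t - s)) =
      -ip (gm e (v, s)) c (Jc e (phi F (v, t)) a (s - t)) := by
  have hcl : ∀ (x : M) (v : E), nm x v = 2 * D → e x v = x :=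
    fun x v hv => closed_of_inj_diam F hD hB hdiam x v hv
  have hE : 0 < finrank ℝ E := by
    refine finrank_pos_iff_exists_ne_zero.2 ⟨vec' v, fun h0 => ?_⟩
    have h2 := nm_vec' v
    rw [h0] at h2
    have h3 : nm (foot v) (0 : E) = 0 := norm_zero (E := TangentSpace 𝓘(ℝ, E) (foot v))
    rw [h3] at h2
    exact zero_ne_one h2
  obtain ⟨N, hN⟩ : ∃ N, finrank ℝ E = N + 1 := ⟨finrank ℝ E - 1, by omega⟩
  obtain ⟨b, A, hJ, hon, hperp, hcol⟩ := exists_jdata F hD hB hcl hN (foot v) (vec' v) (nm_vec' v)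
  set x := foot v with hx
  set ν := vec' v with hν
  have hnv : ∀ t, nm (gam e x ν t) (vel e x ν t) = 1 := fun t => (nm_vel F x ν t).trans (nm_vec' v)
  rw [Jc_phi F, Jc_phi F]
  change ip (gam e x ν t) a (jf e x ν s t c) = -ip (gam e x ν s) c (jf e x ν t s a)
  have ha0 : ip (gam e x ν t) a (vel e x ν t) = 0 := by
    rw [WR.ip_comm']
    exact ha
  have hc0 : ip (gam e x ν s) c (vel e x ν s) = 0 := by
    rw [WR.ip_comm']
    exact hc
  obtain ⟨P, hP⟩ : ∃ P : Fin N → ℝ, a = ∑ i, P i • b t i :=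
    ⟨_, H703.frame_complete hN (hnv t) (hon t) (hperp t) ha0⟩
  obtain ⟨Q, hQ⟩ : ∃ Q : Fin N → ℝ, c = ∑ i, Q i • b s i :=
    ⟨_, H703.frame_complete hN (hnv s) (hon s) (hperp s) hc0⟩
  have hjf : ∀ (s t : ℝ) (c : Fin N → ℝ), jf e x ν s t (∑ j, c j • b s j) =
      ∑ i, (A s t *ᵥ c) i • b t i := by
    intro s t c
    rw [asm_jf_sum]
    have h1 : ∀ j, jf e x ν s t (c j • b s j) = ∑ i, (A s t i j * c j) • b t i := by
      intro j
      rw [asm_jf_smul, hcol, Finset.smul_sum]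
      refine Finset.sum_congr rfl fun i _ => ?_
      rw [smul_smul, mul_comm]
    simp_rw [h1]
    rw [Finset.sum_comm]
    refine Finset.sum_congr rfl fun i _ => ?_
    rw [← Finset.sum_smul]
    rfl
  have hcoord : ∀ (t : ℝ) (c : Fin N → ℝ) (i : Fin N),
      ip (gam e x ν t) (b t i) (∑ j, c j • b t j) = c i := by
    intro t c i
    rw [asm_ip_sum_right]
    simp_rw [asm_ip_smul_right, hon]
    simp
  have hip : ∀ (t : ℝ) (c d : Fin N → ℝ),
      ip (gam e x ν t) (∑ j, c j • b t j) (∑ j, d j • b t j) = c ⬝ᵥ d := by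
    intro t c d
    rw [asm_ip_sum_left]
    refine Finset.sum_congr rfl fun i _ => ?_
    rw [asm_ip_smul_left, hcoord]
  rw [hP, hQ, hjf, hjf, hip, hip, hJ.anti s t, Matrix.neg_mulVec, dotProduct_neg, neg_neg,
    Matrix.mulVec_transpose, dotProduct_comm Q, Matrix.dotProduct_mulVec]

end

end Vale.Agent.P231.S3V
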