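import Vale.Agent.P231.S3V.Four2
import Vale.Agent.P231.S2N.Var

/-!
# P231, stage 3, S3-B (3)(ii): the analysis of the weighted superpositions
-/

set_option linter.unusedSectionVars false
set_option linter.unusedVariables false

open Set Filter MeasureTheory
open scoped ContDiff Topology

namespace Vale.Agent.P231.S3V

noncomputable section

open Vale.Agent.P231.Fm Vale.Agent.P231.WC Vale.Agent.P231.S2N

/-! ### changes of the time -/

/-- admissible changes of the time -/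
structure TM (D : ℝ) (μ : ℝ → ℝ) : Prop where
  sm : ContDiff ℝ ∞ μ
  pos : ∀ s, 0 < deriv μ s
  per : ∀ s, μ (s + D) = μ s + D

variable {D : ℝ} {μ : ℝ → ℝ}

theorem TM.id (D : ℝ) : TM D (fun s => s) where
  sm := contDiff_id
  pos s := by
    have : deriv (fun s : ℝ => s) s = 1 := deriv_id s
    rw [this]
    exact one_pos
  per s := rfl

theorem TM.hasDerivAt (h : TM D μ) (s : ℝ) : HasDerivAt μ (deriv μ s) s :=
  (h.sm.differentiable (by simp) s).hasDerivAt

theorem TM.cont_deriv (h : TM D μ) : Continuous (deriv μ) := h.sm.continuous_deriv (by simp)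

theorem TM.per_sub (h : TM D μ) (s : ℝ) : μ (s - D) = μ s - D := by
  have := h.per (s - D)
  rw [sub_add_cancel] at this
  linarith

theorem TM.per2 (h : TM D μ) (s : ℝ) : μ (s + 2 * D) = μ s + 2 * D := by
  have h1 := h.per s
  have h2 := h.per (s + D)
  have e1 : s + 2 * D = s + D + D := by ring
  rw [e1, h2, h1]
  ring

theorem TM.deriv_per (h : TM D μ) (s : ℝ) : deriv μ (s + D) = deriv μ s := by
  have h1 : (fun s => μ (s + D)) = fun s => μ s + D := funext h.per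
  have h2 : deriv (fun s => μ (s + D)) s = deriv μ (s + D) := deriv_comp_add_const μ D s
  rw [← h2, h1]
  exact deriv_add_const D

theorem TM.strictMono (h : TM D μ) : StrictMono μ := strictMono_of_deriv_pos h.pos

theorem TM.per_nat (h : TM D μ) (n : ℕ) : μ (n * D) = μ 0 + n * D ∧ μ (-(n * D)) = μ 0 - n * D := by
  induction n with
  | zero => simp
  | succ n ih =>
    obtain ⟨h1, h2⟩ := ih
    constructor
    · have e1 : ((n + 1 : ℕ) : ℝ) * D = n * D + D := by push_cast; ring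
      rw [e1, h.per, h1]
      ring
    · have e1 : -(((n + 1 : ℕ) : ℝ) * D) = -(n * D) - D := by push_cast; ring
      rw [e1, h.per_sub, h2]
      push_cast
      ring

theorem TM.surj (h : TM D μ) (hD : 0 < D) : Function.Surjective μ := by
  have hc : Continuous μ := h.sm.continuous
  refine hc.surjective ?_ ?_
  · refine tendsto_atTop_atTop.2 fun b => ?_
    obtain ⟨n, hn⟩ := exists_nat_gt ((b - μ 0) / D)
    refine ⟨n * D, fun a ha => ?_⟩
    have h1 := h.strictMono.monotone ha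
    rw [(h.per_nat n).1] at h1
    rw [div_lt_iff₀ hD] at hn
    linarith
  · refine tendsto_atBot_atBot.2 fun b => ?_
    obtain ⟨n, hn⟩ := exists_nat_gt ((μ 0 - b) / D)
    refine ⟨-(n * D), fun a ha => ?_⟩
    have h1 := h.strictMono.monotone ha
    rw [(h.per_nat n).2] at h1
    rw [div_lt_iff₀ hD] at hn
    linarith

/-- the inverse of a change of the time -/
theorem TM.exists_inv (h : TM D μ) (hD : 0 < D) : ∃ ν : ℝ → ℝ, ContDiff ℝ ∞ ν ∧
    (∀ s, ν (μ s) = s) ∧ (∀ τ, μ (ν τ) = τ) ∧ (∀ τ, 0 < deriv ν τ) ∧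
    ∀ τ, ν (τ + D) = ν τ + D := by
  let o : ℝ ≃o ℝ := h.strictMono.orderIsoOfSurjective μ (h.surj hD)
  let f : ℝ ≃ₜ ℝ := o.toHomeomorph
  have hf : ∀ x, f x = μ x := fun x => rfl
  have h1 : ContDiff ℝ ∞ (f.symm : ℝ → ℝ) :=
    Homeomorph.contDiff_symm_deriv f (f' := deriv μ) (fun x => (h.pos x).ne')
      (fun x => h.hasDerivAt x) h.sm
  have h2 : ∀ s, f.symm (μ s) = s := fun s => f.symm_apply_apply s
  have h3 : ∀ τ, μ (f.symm τ) = τ := fun τ => f.apply_symm_apply τ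
  refine ⟨f.symm, h1, h2, h3, fun τ => ?_, fun τ => ?_⟩
  · have k1 : HasDerivAt (f.symm : ℝ → ℝ) (deriv (f.symm : ℝ → ℝ) τ) τ :=
      (h1.differentiable (by simp) τ).hasDerivAt
    have k2 := (h.hasDerivAt (f.symm τ)).comp τ k1
    have k3 : (μ ∘ (f.symm : ℝ → ℝ)) = fun τ => τ := funext h3
    rw [k3] at k2
    have k4 := k2.unique (hasDerivAt_id τ)
    have k5 := h.pos (f.symm τ)
    by_contra hcon
    push Not at hcon
    nlinarith
  · refine h.strictMono.injective ?_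
    rw [h3, h.per, h3]

/-! ### double integrals -/

theorem swap_cont {f : ℝ × ℝ → ℝ} (hf : Continuous f) (a b c d : ℝ) :
    ∫ x in a..b, ∫ y in c..d, f (x, y) = ∫ y in c..d, ∫ x in a..b, f (x, y) := by
  refine intervalIntegral_intervalIntegral_swap (F := fun x y => f (x, y)) ?_
  have h1 : IntegrableOn f (uIcc a b ×ˢ uIcc c d) volume :=
    hf.continuousOn.integrableOn_compact (isCompact_uIcc.prod isCompact_uIcc)
  exact h1.mono_set (prod_mono uIoc_subset_uIcc uIoc_subset_uIcc)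

theorem cont_int {f : ℝ × ℝ → ℝ} (hf : Continuous f) (c d : ℝ) :
    Continuous fun x => ∫ y in c..d, f (x, y) :=
  intervalIntegral.continuous_parametric_intervalIntegral_of_continuous'
    (f := fun x y => f (x, y)) hf c d

theorem contDiff_int {g : ℝ × ℝ → ℝ} (hg : ContDiff ℝ ∞ g) (T : ℝ) :
    ContDiff ℝ ∞ fun x => ∫ t in (0 : ℝ)..T, g (x, t) := by
  have h1 : ((Dif.lin ℝ).prod (Dif.lin ℝ)).Map (Dif.lin ℝ) (fun q : ℝ × ℝ => g q) := by
    intro E' _ _ _ u x hu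
    exact Sm.comp (f := g) (g := u) (Sm.of_contDiff hg _) (Sm.prodMk hu.1 hu.2)
  have h2 : (Dif.lin ℝ).Map (Dif.lin ℝ) (fun x : ℝ => ∫ t in (0 : ℝ)..T,
      (fun q : ℝ × ℝ => g q) (x, t)) := H766.map_integral h1 T
  refine contDiff_iff_contDiffAt.2 fun t => ?_
  have h3 : Sm (fun x : ℝ => ∫ t in (0 : ℝ)..T, g (x, t)) t :=
    h2 (u := fun x : ℝ => x) (Sm.of_contDiff contDiff_id t)
  exact h3.contDiffAt

/-- integrals over a period -/
theorem int_shift {f : ℝ → ℝ} {T : ℝ} (h : ∀ t, f (t + T) = f t) (a : ℝ) :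
    ∫ t in (0 : ℝ)..T, f (t + a) = ∫ t in (0 : ℝ)..T, f t := by
  rw [intervalIntegral.integral_comp_add_right, zero_add]
  have h1 : Function.Periodic f T := h
  have h2 := h1.intervalIntegral_add_eq a 0
  rw [zero_add] at h2
  rw [add_comm T a]
  exact h2

/-- the pairing of the superposition with its source -/
theorem pair_sym {κ : ℝ × ℝ → ℝ} (hκ : Continuous κ) {T : ℝ}
    (hper : ∀ t s, κ (t + T, s + T) = κ (t, s)) (hanti : ∀ t s, κ (s, t) = -κ (t, s)) :
    ∫ t in (0 : ℝ)..T, ∫ r in (0 : ℝ)..D, (κ (t, t - r) - κ (t - D, t - r)) =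
      2 * ∫ t in (0 : ℝ)..T, ∫ r in (0 : ℝ)..D, κ (t, t - r) := by
  have c1 : Continuous fun p : ℝ × ℝ => κ (p.1, p.1 - p.2) :=
    hκ.comp (continuous_fst.prodMk (continuous_fst.sub continuous_snd))
  have c2 : Continuous fun p : ℝ × ℝ => κ (p.1 - D, p.1 - p.2) :=
    hκ.comp ((continuous_fst.sub continuous_const).prodMk (continuous_fst.sub continuous_snd))
  have s1 : ∀ t, ∫ r in (0 : ℝ)..D, (κ (t, t - r) - κ (t - D, t - r)) =
      (∫ r in (0 : ℝ)..D, κ (t, t - r)) - ∫ r in (0 : ℝ)..D, κ (t - D, t - r) := fun t =>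
    intervalIntegral.integral_sub
      ((c1.comp (continuous_const.prodMk continuous_id : Continuous fun r : ℝ => (t, r))).intervalIntegrable _ _)
      ((c2.comp (continuous_const.prodMk continuous_id : Continuous fun r : ℝ => (t, r))).intervalIntegrable _ _)
  simp only [s1]
  rw [intervalIntegral.integral_sub ((cont_int c1 0 D).intervalIntegrable _ _)
    ((cont_int c2 0 D).intervalIntegrable _ _)]
  have key : ∫ t in (0 : ℝ)..T, ∫ r in (0 : ℝ)..D, κ (t - D, t - r) =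
      -∫ t in (0 : ℝ)..T, ∫ r in (0 : ℝ)..D, κ (t, t - r) := by
    have e1 : ∀ t, ∫ r in (0 : ℝ)..D, κ (t - D, t - r) =
        ∫ r in (0 : ℝ)..D, -κ (t - D + r, t - D) := by
      intro t
      have k := intervalIntegral.integral_comp_sub_left (a := 0) (b := D)
        (fun r => κ (t - D, t - r)) D
      rw [sub_self, sub_zero] at k
      rw [← k]
      refine intervalIntegral.integral_congr fun r _ => ?_
      have e : t - (D - r) = t - D + r := by ring
      simp only [e]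
      rw [hanti (t - D + r) (t - D)]
    simp only [e1]
    have c3 : Continuous fun p : ℝ × ℝ => -κ (p.1 - D + p.2, p.1 - D) :=
      (hκ.comp (((continuous_fst.sub continuous_const).add continuous_snd).prodMk
        (continuous_fst.sub continuous_const))).neg
    rw [swap_cont c3, swap_cont c1, ← intervalIntegral.integral_neg]
    refine intervalIntegral.integral_congr fun r _ => ?_
    simp only [intervalIntegral.integral_neg]
    congr 1
    have k := int_shift (f := fun t => κ (t, t - r)) (T := T) (fun t => by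
      have e : t + T - r = t - r + T := by ring
      simp only [e]
      exact hper _ _) (r - D)
    rw [← k]
    refine intervalIntegral.integral_congr fun t _ => ?_
    have e2 : t - D + r = t + (r - D) := by ring
    have e3 : t + (r - D) - r = t - D := by ring
    simp only [e2, e3]
  rw [key]
  ring

/-- the substitution of the time -/
theorem TM.subst (h : TM D μ) {Q : ℝ × ℝ → ℝ} (hQ : Continuous Q) {T : ℝ}
    (hT : ∀ s, μ (s + T) = μ s + T) (hper : ∀ τ σ, Q (τ + T, σ + T) = Q (τ, σ)) :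
    ∫ t in (0 : ℝ)..T, ∫ r in (0 : ℝ)..D,
      deriv μ t * deriv μ (t - r) * Q (μ t, μ (t - r)) =
      ∫ ρ in (0 : ℝ)..D, ∫ τ in (0 : ℝ)..T, Q (τ, τ - ρ) := by
  set G : ℝ → ℝ := fun τ => ∫ ρ in (0 : ℝ)..D, Q (τ, τ - ρ) with hG
  have c1 : Continuous fun p : ℝ × ℝ => Q (p.1, p.1 - p.2) :=
    hQ.comp (continuous_fst.prodMk (continuous_fst.sub continuous_snd))
  have hGc : Continuous G := cont_int c1 0 D
  have hGp : ∀ τ, G (τ + T) = G τ := by
    intro τ
    simp only [hG]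
    refine intervalIntegral.integral_congr fun ρ _ => ?_
    have e : τ + T - ρ = τ - ρ + T := by ring
    simp only [e]
    exact hper _ _
  have e1 : ∀ t, ∫ r in (0 : ℝ)..D, deriv μ t * deriv μ (t - r) * Q (μ t, μ (t - r)) =
      G (μ t) * deriv μ t := by
    intro t
    have k1 := intervalIntegral.integral_comp_sub_left (a := 0) (b := D)
      (fun s => deriv μ t * deriv μ s * Q (μ t, μ s)) t
    rw [sub_zero] at k1
    rw [k1]
    have k2 := intervalIntegral.integral_comp_mul_deriv (a := t - D) (b := t)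
      (f := μ) (f' := deriv μ) (g := fun σ => Q (μ t, σ)) (fun x _ => h.hasDerivAt x)
      h.cont_deriv.continuousOn (hQ.comp (continuous_const.prodMk continuous_id))
    have k3 := intervalIntegral.integral_comp_sub_left (a := 0) (b := D)
      (fun σ => Q (μ t, σ)) (μ t)
    rw [sub_zero] at k3
    rw [h.per_sub] at k2
    have k4 : G (μ t) = ∫ ρ in (0 : ℝ)..D, Q (μ t, μ t - ρ) := rfl
    rw [k4, k3, ← k2, ← intervalIntegral.integral_mul_const]
    refine intervalIntegral.integral_congr fun s _ => ?_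
    simp only [Function.comp_apply]
    ring
  simp only [e1]
  have k1 := intervalIntegral.integral_comp_mul_deriv (a := 0) (b := T)
      (f := μ) (f' := deriv μ) (g := G) (fun x _ => h.hasDerivAt x)
      h.cont_deriv.continuousOn hGc
  have k2 : ∫ t in (0 : ℝ)..T, G (μ t) * deriv μ t = ∫ x in μ 0..μ T, G x := k1
  have k3 : μ T = μ 0 + T := by
    have := hT 0
    rwa [zero_add] at this
  have k4 : Function.Periodic G T := hGp
  have k5 := k4.intervalIntegral_add_eq (μ 0) 0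
  rw [zero_add] at k5
  rw [k2, k3, k5]
  exact swap_cont c1 0 T 0 D

/-! ### the function `h` -/

/-- the function `h` -/
def hh (Q : ℝ × ℝ → ℝ) (T ρ : ℝ) : ℝ := ∫ τ in (0 : ℝ)..T, Q (τ, τ - ρ)

theorem contDiff_hh {Q : ℝ × ℝ → ℝ} (hQ : ContDiff ℝ ∞ Q) (T : ℝ) : ContDiff ℝ ∞ (hh Q T) :=
  contDiff_int (g := fun p : ℝ × ℝ => Q (p.2, p.2 - p.1))
    (hQ.comp (contDiff_snd.prodMk (contDiff_snd.sub contDiff_fst))) T

theorem cos_split (m τ ρ : ℝ) : Real.cos (m * τ) * Real.cos (m * (τ - ρ)) +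
      Real.sin (m * τ) * Real.sin (m * (τ - ρ)) = Real.cos (m * ρ) := by
  rw [← Real.cos_sub]
  congr 1
  ring

/-- the integrals over a period of the products with the test functions -/
def hc (Q : ℝ × ℝ → ℝ) (T m ρ : ℝ) : ℝ :=
  ∫ τ in (0 : ℝ)..T, Real.cos (m * τ) * Real.cos (m * (τ - ρ)) * Q (τ, τ - ρ)

def hs (Q : ℝ × ℝ → ℝ) (T m ρ : ℝ) : ℝ :=
  ∫ τ in (0 : ℝ)..T, Real.sin (m * τ) * Real.sin (m * (τ - ρ)) * Q (τ, τ - ρ)

theorem cont_cQ {Q : ℝ × ℝ → ℝ} (hQ : Continuous Q) (m : ℝ) : Continuous fun p : ℝ × ℝ =>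
    Real.cos (m * p.2) * Real.cos (m * (p.2 - p.1)) * Q (p.2, p.2 - p.1) := by
  have c0 : Continuous fun p : ℝ × ℝ => Q (p.2, p.2 - p.1) :=
    hQ.comp (continuous_snd.prodMk (continuous_snd.sub continuous_fst))
  have b1 : Continuous fun p : ℝ × ℝ => Real.cos (m * p.2) * Real.cos (m * (p.2 - p.1)) := by
    fun_prop
  exact b1.mul c0

theorem cont_sQ {Q : ℝ × ℝ → ℝ} (hQ : Continuous Q) (m : ℝ) : Continuous fun p : ℝ × ℝ =>
    Real.sin (m * p.2) * Real.sin (m * (p.2 - p.1)) * Q (p.2, p.2 - p.1) := by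
  have c0 : Continuous fun p : ℝ × ℝ => Q (p.2, p.2 - p.1) :=
    hQ.comp (continuous_snd.prodMk (continuous_snd.sub continuous_fst))
  have b1 : Continuous fun p : ℝ × ℝ => Real.sin (m * p.2) * Real.sin (m * (p.2 - p.1)) := by
    fun_prop
  exact b1.mul c0

theorem hc_add_hs {Q : ℝ × ℝ → ℝ} (hQ : Continuous Q) (T m ρ : ℝ) :
    hc Q T m ρ + hs Q T m ρ = Real.cos (m * ρ) * hh Q T ρ := by
  have c0 : Continuous fun τ : ℝ => Q (τ, τ - ρ) :=
    hQ.comp (continuous_id.prodMk (continuous_id.sub continuous_const))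
  have b1 : Continuous fun τ : ℝ => Real.cos (m * τ) * Real.cos (m * (τ - ρ)) := by fun_prop
  have b2 : Continuous fun τ : ℝ => Real.sin (m * τ) * Real.sin (m * (τ - ρ)) := by fun_prop
  have d1 : Continuous fun τ : ℝ => Real.cos (m * τ) * Real.cos (m * (τ - ρ)) * Q (τ, τ - ρ) :=
    b1.mul c0
  have d2 : Continuous fun τ : ℝ => Real.sin (m * τ) * Real.sin (m * (τ - ρ)) * Q (τ, τ - ρ) :=
    b2.mul c0
  have k1 := intervalIntegral.integral_add (d1.intervalIntegrable (μ := volume) 0 T)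
    (d2.intervalIntegrable 0 T)
  have k2 := intervalIntegral.integral_const_mul (a := 0) (b := T) (μ := volume)
    (Real.cos (m * ρ)) (fun τ => Q (τ, τ - ρ))
  unfold hc hs hh
  refine k1.symm.trans (Eq.trans ?_ k2)
  refine intervalIntegral.integral_congr fun τ _ => ?_
  have k3 := cos_split m τ ρ
  change Real.cos (m * τ) * Real.cos (m * (τ - ρ)) * Q (τ, τ - ρ) +
    Real.sin (m * τ) * Real.sin (m * (τ - ρ)) * Q (τ, τ - ρ) = Real.cos (m * ρ) * Q (τ, τ - ρ)
  rw [← k3]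
  ring

/-- the sum of the pairings of the two test fields of the frequency `m` -/
theorem test_sum {Q : ℝ × ℝ → ℝ} (hQ : Continuous Q) (D T m : ℝ) :
    (∫ ρ in (0 : ℝ)..D, hc Q T m ρ) + (∫ ρ in (0 : ℝ)..D, hs Q T m ρ) =
      ∫ ρ in (0 : ℝ)..D, Real.cos (m * ρ) * hh Q T ρ := by
  have e1 : Continuous (hc Q T m) := cont_int (cont_cQ hQ m) 0 T
  have e2 : Continuous (hs Q T m) := cont_int (cont_sQ hQ m) 0 T
  rw [← intervalIntegral.integral_add (e1.intervalIntegrable _ _) (e2.intervalIntegrable _ _)]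
  exact intervalIntegral.integral_congr fun ρ _ => hc_add_hs hQ T m ρ

section Pos

variable {ν : ℝ → ℝ} {q : ℝ × ℝ → ℝ}

/-- the kernel as a multiple of the time difference -/
def QQ (ν : ℝ → ℝ) (q : ℝ × ℝ → ℝ) (p : ℝ × ℝ) : ℝ := (ν p.1 - ν p.2) * q p

theorem contDiff_QQ (hν : ContDiff ℝ ∞ ν) (hq : ContDiff ℝ ∞ q) : ContDiff ℝ ∞ (QQ ν q) :=
  ((hν.comp contDiff_fst).sub (hν.comp contDiff_snd)).mul hq

theorem hh_zero (T : ℝ) : hh (QQ ν q) T 0 = 0 := by
  unfold hh QQ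
  simp

theorem hh_D (T : ℝ) (h1 : ∀ τ, q (τ, τ - D) = 0) : hh (QQ ν q) T D = 0 := by
  unfold hh QQ
  simp [h1]

/-- the slope of `h` at zero -/
theorem deriv_hh (hν : ContDiff ℝ ∞ ν) (hq : ContDiff ℝ ∞ q) (T : ℝ) :
    deriv (hh (QQ ν q) T) 0 = ∫ τ in (0 : ℝ)..T, deriv ν τ * q (τ, τ) := by
  have hg : ContDiff ℝ ∞ fun p : ℝ × ℝ => QQ ν q (p.2, p.2 - p.1) :=
    (contDiff_QQ hν hq).comp (contDiff_snd.prodMk (contDiff_snd.sub contDiff_fst))
  have h1 := congrFun (deriv_int_d1 hg 0 T) 0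
  have h2 : deriv (hh (QQ ν q) T) 0 =
      ∫ t in (0 : ℝ)..T, d1 (fun p : ℝ × ℝ => QQ ν q (p.2, p.2 - p.1)) (0, t) := h1
  rw [h2]
  refine intervalIntegral.integral_congr fun τ _ => ?_
  rw [← deriv_d1 hg]
  have k1 : HasDerivAt (fun ρ : ℝ => τ - ρ) (-1) 0 := (hasDerivAt_id (0 : ℝ)).const_sub τ
  have k2 : HasDerivAt (fun ρ : ℝ => ν τ - ν (τ - ρ)) (-(deriv ν (τ - 0) * -1)) 0 := by
    have k3 : HasDerivAt ν (deriv ν (τ - 0)) (τ - 0) := (hν.differentiable (by simp) _).hasDerivAt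
    exact (k3.comp (0 : ℝ) k1).const_sub (ν τ)
  have hq1 : ContDiff ℝ ∞ fun ρ : ℝ => q (τ, τ - ρ) :=
    hq.comp (contDiff_const.prodMk (contDiff_const.sub contDiff_id))
  have k4 : HasDerivAt (fun ρ : ℝ => q (τ, τ - ρ)) (deriv (fun ρ : ℝ => q (τ, τ - ρ)) 0) 0 :=
    (hq1.differentiable (by simp) _).hasDerivAt
  have k5 := (k2.mul k4).deriv
  have e : (fun s => (fun p : ℝ × ℝ => QQ ν q (p.2, p.2 - p.1)) (s, τ)) =
      fun ρ : ℝ => (ν τ - ν (τ - ρ)) * q (τ, τ - ρ) := rfl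
  rw [e]
  refine k5.trans ?_
  rw [sub_zero, sub_self, zero_mul, add_zero]
  ring

theorem deriv_hh_pos (hν : ContDiff ℝ ∞ ν) (hν' : ∀ τ, 0 < deriv ν τ) (hq : ContDiff ℝ ∞ q) {T : ℝ}
    (hT : 0 < T) (hnn : ∀ τ, 0 ≤ q (τ, τ)) (hp : ∃ τ ∈ Icc (0 : ℝ) T, 0 < q (τ, τ)) :
    0 < deriv (hh (QQ ν q) T) 0 := by
  obtain ⟨τ₀, hτ₀, hp⟩ := hp
  rw [deriv_hh hν hq]
  have c1 : Continuous fun τ => deriv ν τ * q (τ, τ) :=
    (hν.continuous_deriv (by simp)).mul (hq.continuous.comp (continuous_id.prodMk continuous_id))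
  exact intervalIntegral.integral_pos hT c1.continuousOn
    (fun τ _ => mul_nonneg (hν' τ).le (hnn τ)) ⟨τ₀, hτ₀, mul_pos (hν' τ₀) hp⟩

/-- **positivity**, odd frequencies -/
theorem core_odd (hD : 0 < D) (hν : ContDiff ℝ ∞ ν) (hν' : ∀ τ, 0 < deriv ν τ)
    (hq : ContDiff ℝ ∞ q) {T : ℝ} (hT : 0 < T) (h1 : ∀ τ, q (τ, τ - D) = 0)
    (hnn : ∀ τ, 0 ≤ q (τ, τ)) (hp : ∃ τ ∈ Icc (0 : ℝ) T, 0 < q (τ, τ))
    (hF : ∀ j : ℕ, j ≠ 0 →
      (∫ ρ in (0 : ℝ)..D, hc (QQ ν q) T ((2 * j + 1) * (Real.pi / (2 * D))) ρ) ≤ 0 ∧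
      (∫ ρ in (0 : ℝ)..D, hs (QQ ν q) T ((2 * j + 1) * (Real.pi / (2 * D))) ρ) ≤ 0) :
    0 < ∫ ρ in (0 : ℝ)..D, ∫ τ in (0 : ℝ)..T, QQ ν q (τ, τ - ρ) := by
  have hQ := contDiff_QQ hν hq
  refine S3E2.four_pos' (h := hh (QQ ν q) T) hD (contDiff_hh hQ T) (hh_zero T) (hh_D T h1)
    (deriv_hh_pos hν hν' hq hT hnn hp) fun j hj => ?_
  have k := test_sum hQ.continuous D T ((2 * j + 1) * (Real.pi / (2 * D)))
  have k2 := hF j hj
  have e : ∀ r : ℝ, (2 * (j : ℝ) + 1) * (Real.pi / (2 * D) * r) =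
      (2 * j + 1) * (Real.pi / (2 * D)) * r := fun r => by ring
  simp only [e]
  linarith [k2.1, k2.2]

/-- **positivity**, even frequencies -/
theorem core_even (hD : 0 < D) (hν : ContDiff ℝ ∞ ν) (hν' : ∀ τ, 0 < deriv ν τ)
    (hq : ContDiff ℝ ∞ q) {T : ℝ} (hT : 0 < T) (h1 : ∀ τ, q (τ, τ - D) = 0)
    (hnn : ∀ τ, 0 ≤ q (τ, τ)) (hp : ∃ τ ∈ Icc (0 : ℝ) T, 0 < q (τ, τ))
    (hF : ∀ j : ℕ, j ≠ 0 →
      (∫ ρ in (0 : ℝ)..D, hc (QQ ν q) T ((2 * j) * (Real.pi / (2 * D))) ρ) ≤ 0 ∧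
      (∫ ρ in (0 : ℝ)..D, hs (QQ ν q) T ((2 * j) * (Real.pi / (2 * D))) ρ) ≤ 0) :
    0 < ∫ ρ in (0 : ℝ)..D, ∫ τ in (0 : ℝ)..T, QQ ν q (τ, τ - ρ) := by
  have hQ := contDiff_QQ hν hq
  refine four_even' (h := hh (QQ ν q) T) hD (contDiff_hh hQ T) (hh_zero T) (hh_D T h1)
    (deriv_hh_pos hν hν' hq hT hnn hp) fun j hj => ?_
  have k := test_sum hQ.continuous D T ((2 * j) * (Real.pi / (2 * D)))
  have k2 := hF j hj
  have e : ∀ r : ℝ, (2 * (j : ℝ)) * (Real.pi / (2 * D) * r) =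
      (2 * j) * (Real.pi / (2 * D)) * r := fun r => by ring
  simp only [e]
  linarith [k2.1, k2.2]

end Pos

end

end Vale.Agent.P231.S3V
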