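import Vale.Agent.P231.S3E2.Four

/-!
# P231, stage 3, S3-B (3)(ii): a Fourier inequality, even frequencies
-/

set_option linter.unusedSectionVars false
set_option linter.unusedVariables false

open Set Filter MeasureTheory
open scoped ContDiff Topology

namespace Vale.Agent.P231.S3V

noncomputable section

open Vale.Agent.P231.S3E2

theorem cos_all {y : ℝ} (h0 : 0 ≤ y) (h1 : y ≤ 2 * Real.pi) :
    HasSum (fun n : ℕ => 1 / (n : ℝ) ^ 2 * Real.cos (n * y))
      (Real.pi ^ 2 / 6 - Real.pi * y / 2 + y ^ 2 / 4) := by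
  have hpi := Real.pi_pos
  have hpi' : Real.pi ≠ 0 := hpi.ne'
  have e1 := hasSum_one_div_nat_pow_mul_cos (k := 1) one_ne_zero (x := y / (2 * Real.pi))
    ⟨by positivity, by rw [div_le_one (by positivity)]; linarith⟩
  have hb : ∀ x : ℝ, (Polynomial.map (algebraMap ℚ ℝ) (Polynomial.bernoulli (2 * 1))).eval x =
      x ^ 2 - x + 6⁻¹ := fun x => bernoulliFun_two x
  rw [hb] at e1
  refine hs_congr e1 (fun n => ?_) ?_
  · have k : 2 * Real.pi * n * (y / (2 * Real.pi)) = (n : ℝ) * y := by field_simp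
    rw [k]
  · have : ((2 * 1).factorial : ℝ) = 2 := by norm_num [Nat.factorial]
    rw [this]
    field_simp
    ring

/-- the kernel -/
def R (x : ℝ) : ℝ := Real.pi ^ 2 / 6 - Real.pi * x / 2 + x ^ 2 / 4

theorem hasSum_R {x : ℝ} (h0 : 0 ≤ x) (h1 : x ≤ Real.pi) :
    HasSum (fun n : ℕ => 1 / (n : ℝ) ^ 2 * Real.cos (n * x)) (R x) :=
  cos_all h0 (by linarith [Real.pi_pos])

theorem hasSum_R0 : HasSum (fun n : ℕ => 1 / (n : ℝ) ^ 2) (R 0) := by
  have h := hasSum_R (x := 0) le_rfl Real.pi_pos.le
  refine hs_congr h (fun j => ?_) rfl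
  rw [mul_zero, Real.cos_zero, mul_one]

theorem hasSum_Rpi : HasSum (fun n : ℕ => 1 / (n : ℝ) ^ 2 * (-1) ^ n) (R Real.pi) := by
  have h := hasSum_R (x := Real.pi) Real.pi_pos.le le_rfl
  refine hs_congr h (fun j => ?_) rfl
  rw [Real.cos_nat_mul_pi]

theorem hasDerivAt_R (x : ℝ) : HasDerivAt R (-(Real.pi / 2) + x / 2) x := by
  have h1 : HasDerivAt (fun x : ℝ => x ^ 2) (2 * x) x := by simpa using hasDerivAt_pow 2 x
  have h2 : HasDerivAt (fun x : ℝ => Real.pi ^ 2 / 6 - Real.pi * x / 2) (-(Real.pi * 1 / 2)) x :=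
    (((hasDerivAt_id x).const_mul Real.pi).div_const 2).const_sub _
  have h4 := h2.add (h1.div_const 4)
  have e : -(Real.pi / 2) + x / 2 = -(Real.pi * 1 / 2) + 2 * x / 4 := by ring
  rw [e]
  exact h4

/-- the Fourier coefficients of `H` and of its second derivative -/
theorem coeff_two' {H : ℝ → ℝ} (hH : ContDiff ℝ ∞ H) (h0 : H 0 = 0) (h1 : H Real.pi = 0)
    (n : ℕ) :
    (n : ℝ) ^ 2 * ∫ x in (0 : ℝ)..Real.pi, Real.cos (n * x) * H x =
      (-1) ^ n * deriv H Real.pi - deriv H 0 - ∫ x in (0 : ℝ)..Real.pi,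
        Real.cos (n * x) * deriv (deriv H) x := by
  set m : ℝ := (n : ℝ) with hm
  have hH1 : ContDiff ℝ ∞ (deriv H) := (contDiff_infty_iff_deriv.1 hH).2
  have hH2 : ContDiff ℝ ∞ (deriv (deriv H)) := (contDiff_infty_iff_deriv.1 hH1).2
  have hd : ∀ x, HasDerivAt H (deriv H x) x := fun x => (hH.differentiable (by simp) x).hasDerivAt
  have hd1 : ∀ x, HasDerivAt (deriv H) (deriv (deriv H) x) x := fun x =>
    (hH1.differentiable (by simp) x).hasDerivAt
  have hs : ∀ x, HasDerivAt (fun x : ℝ => Real.sin (m * x)) (Real.cos (m * x) * m) x := fun x =>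
    hasDerivAt_sin_mul m x
  have hc : ∀ x, HasDerivAt (fun x : ℝ => Real.cos (m * x)) (-Real.sin (m * x) * m) x := fun x =>
    hasDerivAt_cos_mul m x
  have hcc : Continuous fun x : ℝ => Real.cos (m * x) := by fun_prop
  have hsc : Continuous fun x : ℝ => Real.sin (m * x) := by fun_prop
  have c1 : Continuous fun x => m ^ 2 * (Real.cos (m * x) * H x) :=
    continuous_const.mul (hcc.mul hH.continuous)
  have c2 : Continuous fun x => Real.cos (m * x) * deriv (deriv H) x := hcc.mul hH2.continuous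
  have i1 := intervalIntegral.integral_eq_sub_of_hasDerivAt (a := 0) (b := Real.pi)
    (f := fun x => Real.sin (m * x) * H x * m + Real.cos (m * x) * deriv H x)
    (f' := fun x => m ^ 2 * (Real.cos (m * x) * H x) + Real.cos (m * x) * deriv (deriv H) x)
    (fun x _ => by
      have k := ((hs x).mul (hd x)).mul_const m
      have k2 := (hc x).mul (hd1 x)
      have k3 := k.add k2
      have e : m ^ 2 * (Real.cos (m * x) * H x) + Real.cos (m * x) * deriv (deriv H) x =
          (Real.cos (m * x) * m * H x + Real.sin (m * x) * deriv H x) * m +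
          (-Real.sin (m * x) * m * deriv H x + Real.cos (m * x) * deriv (deriv H) x) := by ring
      rw [e]
      exact k3)
    ((c1.add c2).intervalIntegrable _ _)
  rw [intervalIntegral.integral_add (c1.intervalIntegrable _ _) (c2.intervalIntegrable _ _),
    intervalIntegral.integral_const_mul] at i1
  have e1 : Real.cos (m * Real.pi) = (-1) ^ n := Real.cos_nat_mul_pi n
  simp only [h0, h1, e1, mul_zero, zero_mul, Real.cos_zero, Real.sin_zero, one_mul, zero_add,
    add_zero, zero_sub] at i1
  linarith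

/-- the Fourier coefficients of a smooth function tend to zero -/
theorem coeff_le' {G : ℝ → ℝ} (hG : ContDiff ℝ ∞ G) : ∃ C : ℝ, ∀ n : ℕ, n ≠ 0 →
    |∫ x in (0 : ℝ)..Real.pi, Real.cos (n * x) * G x| ≤ C / n := by
  have hpi := Real.pi_pos
  have hG1 : ContDiff ℝ ∞ (deriv G) := (contDiff_infty_iff_deriv.1 hG).2
  obtain ⟨C, hC⟩ := (isCompact_Icc (a := (0 : ℝ)) (b := Real.pi)).exists_bound_of_continuousOn
    hG1.continuous.continuousOn
  have hC0 : 0 ≤ C := (norm_nonneg _).trans (hC 0 ⟨le_rfl, by positivity⟩)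
  refine ⟨C * Real.pi, fun n hn => ?_⟩
  set m : ℝ := (n : ℝ) with hm
  have hm0 : 0 < m := by rw [hm]; exact_mod_cast Nat.pos_of_ne_zero hn
  have hd : ∀ x, HasDerivAt G (deriv G x) x := fun x => (hG.differentiable (by simp) x).hasDerivAt
  have hs : ∀ x, HasDerivAt (fun x : ℝ => Real.sin (m * x)) (Real.cos (m * x) * m) x := fun x =>
    hasDerivAt_sin_mul m x
  have hcc : Continuous fun x : ℝ => Real.cos (m * x) := by fun_prop
  have hsc : Continuous fun x : ℝ => Real.sin (m * x) := by fun_prop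
  have c1 : Continuous fun x => m * (Real.cos (m * x) * G x) :=
    continuous_const.mul (hcc.mul hG.continuous)
  have c2 : Continuous fun x => Real.sin (m * x) * deriv G x := hsc.mul hG1.continuous
  have i1 := intervalIntegral.integral_eq_sub_of_hasDerivAt (a := 0) (b := Real.pi)
    (f := fun x => Real.sin (m * x) * G x)
    (f' := fun x => m * (Real.cos (m * x) * G x) + Real.sin (m * x) * deriv G x)
    (fun x _ => by
      have k := (hs x).mul (hd x)
      have e : m * (Real.cos (m * x) * G x) + Real.sin (m * x) * deriv G x =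
          Real.cos (m * x) * m * G x + Real.sin (m * x) * deriv G x := by ring
      rw [e]
      exact k)
    ((c1.add c2).intervalIntegrable _ _)
  rw [intervalIntegral.integral_add (c1.intervalIntegrable _ _) (c2.intervalIntegrable _ _),
    intervalIntegral.integral_const_mul] at i1
  have e1 : Real.sin (m * Real.pi) = 0 := Real.sin_nat_mul_pi n
  simp only [mul_zero, zero_mul, Real.sin_zero, sub_zero, e1] at i1
  have h2 : |∫ x in (0 : ℝ)..Real.pi, Real.sin (m * x) * deriv G x| ≤ C * Real.pi := by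
    have := intervalIntegral.norm_integral_le_of_norm_le_const (a := 0) (b := Real.pi)
      (f := fun x => Real.sin (m * x) * deriv G x) (C := C) (fun x hx => by
        rw [uIoc_of_le (by positivity)] at hx
        rw [norm_mul]
        have k1 : ‖Real.sin (m * x)‖ ≤ 1 := Real.abs_sin_le_one _
        have k2 := hC x ⟨hx.1.le, hx.2⟩
        calc ‖Real.sin (m * x)‖ * ‖deriv G x‖ ≤ 1 * C := by gcongr
          _ = C := one_mul C)
    rw [sub_zero, abs_of_pos hpi] at this
    exact this
  have h4 : m * |∫ x in (0 : ℝ)..Real.pi, Real.cos (m * x) * G x| ≤ C * Real.pi := by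
    have h3 : m * ∫ x in (0 : ℝ)..Real.pi, Real.cos (m * x) * G x =
        -∫ x in (0 : ℝ)..Real.pi, Real.sin (m * x) * deriv G x := by linarith
    have h5 : m * |∫ x in (0 : ℝ)..Real.pi, Real.cos (m * x) * G x| =
        |m * ∫ x in (0 : ℝ)..Real.pi, Real.cos (m * x) * G x| := by rw [abs_mul, abs_of_pos hm0]
    rw [h5, h3, abs_neg]
    exact h2
  rw [le_div_iff₀ hm0, mul_comm]
  exact h4

/-- **the Fourier inequality** for the even frequencies -/
theorem four_even {H : ℝ → ℝ} (hH : ContDiff ℝ ∞ H) (h0 : H 0 = 0) (h1 : H Real.pi = 0)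
    (hd : 0 < deriv H 0) (hm : ∀ n : ℕ, n ≠ 0 →
      ∫ x in (0 : ℝ)..Real.pi, Real.cos (n * x) * H x ≤ 0) :
    0 < ∫ x in (0 : ℝ)..Real.pi, H x := by
  have hpi := Real.pi_pos
  have hH1 : ContDiff ℝ ∞ (deriv H) := (contDiff_infty_iff_deriv.1 hH).2
  have hH2 : ContDiff ℝ ∞ (deriv (deriv H)) := (contDiff_infty_iff_deriv.1 hH1).2
  set A : ℕ → ℝ := fun j => ∫ x in (0 : ℝ)..Real.pi, Real.cos (j * x) * H x with hA
  set B : ℕ → ℝ := fun j => ∫ x in (0 : ℝ)..Real.pi,
    Real.cos (j * x) * deriv (deriv H) x with hB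
  have hAB : ∀ j : ℕ, (j : ℝ) ^ 2 * A j = (-1) ^ j * deriv H Real.pi - deriv H 0 - B j := fun j =>
    coeff_two' hH h0 h1 j
  obtain ⟨C, hC⟩ := (isCompact_Icc (a := (0 : ℝ)) (b := Real.pi)).exists_bound_of_continuousOn
    hH2.continuous.continuousOn
  have hC0 : 0 ≤ C := (norm_nonneg _).trans (hC 0 ⟨le_rfl, by positivity⟩)
  -- the integral of the kernel against the second derivative
  have hsB : HasSum (fun j : ℕ => 1 / (j : ℝ) ^ 2 * B j)
      (∫ x in (0 : ℝ)..Real.pi, R x * deriv (deriv H) x) := by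
    have key := intervalIntegral.hasSum_integral_of_dominated_convergence (a := (0 : ℝ))
      (b := Real.pi) (μ := volume)
      (F := fun (j : ℕ) (x : ℝ) => 1 / (j : ℝ) ^ 2 * Real.cos (j * x) *
        deriv (deriv H) x) (f := fun x => R x * deriv (deriv H) x)
      (fun j x => 1 / (j : ℝ) ^ 2 * C) ?_ ?_ ?_ ?_ ?_
    · refine hs_congr key (fun j => ?_) rfl
      rw [hB]
      simp only
      rw [← intervalIntegral.integral_const_mul]
      refine intervalIntegral.integral_congr fun x _ => ?_
      exact mul_assoc _ _ _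
    · intro j
      have : Continuous fun x : ℝ => 1 / (j : ℝ) ^ 2 * Real.cos (j * x) *
          deriv (deriv H) x := by
        have := hH2.continuous
        fun_prop
      exact this.aestronglyMeasurable
    · intro j
      refine Eventually.of_forall fun x hx => ?_
      rw [uIoc_of_le (by positivity)] at hx
      rw [norm_mul, norm_mul]
      have k1 : ‖Real.cos (j * x)‖ ≤ 1 := Real.abs_cos_le_one _
      have k2 := hC x ⟨hx.1.le, hx.2⟩
      have k3 : ‖1 / (j : ℝ) ^ 2‖ = 1 / (j : ℝ) ^ 2 := Real.norm_of_nonneg (by positivity)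
      rw [k3]
      calc 1 / (j : ℝ) ^ 2 * ‖Real.cos (j * x)‖ * ‖deriv (deriv H) x‖ ≤
          1 / (j : ℝ) ^ 2 * 1 * C := by gcongr
        _ = 1 / (j : ℝ) ^ 2 * C := by ring
    · exact Eventually.of_forall fun x hx => hasSum_R0.summable.mul_right C
    · exact (continuous_const.intervalIntegrable _ _)
    · refine Eventually.of_forall fun x hx => ?_
      rw [uIoc_of_le (by positivity)] at hx
      exact (hasSum_R hx.1.le hx.2).mul_right _
  -- integration by parts
  have hval : R Real.pi * deriv H Real.pi - R 0 * deriv H 0 -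
      ∫ x in (0 : ℝ)..Real.pi, R x * deriv (deriv H) x =
      -(1 / 2 * ∫ x in (0 : ℝ)..Real.pi, H x) := by
    have hdH : ∀ x, HasDerivAt H (deriv H x) x := fun x =>
      (hH.differentiable (by simp) x).hasDerivAt
    have hdH1 : ∀ x, HasDerivAt (deriv H) (deriv (deriv H) x) x := fun x =>
      (hH1.differentiable (by simp) x).hasDerivAt
    have hq : ∀ x, HasDerivAt (fun x : ℝ => -(Real.pi / 2) + x / 2) (1 / 2) x :=
      fun x => by
        have := ((hasDerivAt_id x).div_const 2).const_add (-(Real.pi / 2))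
        exact this
    have cR : Continuous R := continuous_iff_continuousAt.2 fun x =>
      (hasDerivAt_R x).continuousAt
    have c1 : Continuous fun x => R x * deriv (deriv H) x := cR.mul hH2.continuous
    have c2 : Continuous fun x => 1 / 2 * H x := continuous_const.mul hH.continuous
    have i1 := intervalIntegral.integral_eq_sub_of_hasDerivAt (a := 0) (b := Real.pi)
      (f := fun x => R x * deriv H x - (-(Real.pi / 2) + x / 2) * H x)
      (f' := fun x => R x * deriv (deriv H) x - 1 / 2 * H x)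
      (fun x _ => by
        have k := ((hasDerivAt_R x).mul (hdH1 x)).sub ((hq x).mul (hdH x))
        have e : R x * deriv (deriv H) x - 1 / 2 * H x =
            ((-(Real.pi / 2) + x / 2) * deriv H x + R x * deriv (deriv H) x) -
            (1 / 2 * H x + (-(Real.pi / 2) + x / 2) * deriv H x) := by ring
        rw [e]
        exact k)
      ((c1.sub c2).intervalIntegrable _ _)
    rw [intervalIntegral.integral_sub (c1.intervalIntegrable _ _) (c2.intervalIntegrable _ _),
      intervalIntegral.integral_const_mul] at i1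
    simp only [h0, h1, mul_zero, sub_zero] at i1
    linarith
  have hsA : HasSum (fun j : ℕ => -(if j = 0 then 0 else A j)) (1 / 2 * ∫ x in (0 : ℝ)..Real.pi, H x) := by
    have e := ((hasSum_Rpi.mul_right (deriv H Real.pi)).sub (hasSum_R0.mul_right (deriv H 0))).sub hsB
    rw [hval] at e
    refine hs_congr e.neg (fun j => ?_) (neg_neg _)
    rcases eq_or_ne j 0 with h | h
    · rw [if_pos h, h]
      simp
    · rw [if_neg h]
      have h2 : (j : ℝ) ≠ 0 := by exact_mod_cast h
      have h3 : A j = ((-1) ^ j * deriv H Real.pi - deriv H 0 - B j) / (j : ℝ) ^ 2 := by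
        rw [eq_div_iff (pow_ne_zero 2 h2), mul_comm]
        exact hAB j
      rw [h3]
      ring
  have hnn : ∀ j : ℕ, 0 ≤ -(if j = 0 then 0 else A j) := fun j => by
    rcases eq_or_ne j 0 with h | h
    · rw [if_pos h, neg_zero]
    · rw [if_neg h]
      exact neg_nonneg.2 (hm j h)
  have hge := hsA.nonneg hnn
  rcases hge.eq_or_lt with h | h
  · exfalso
    rw [← h] at hsA
    have hz := (hasSum_zero_iff_of_nonneg hnn).1 hsA
    have hB' : ∀ j : ℕ, j ≠ 0 → B j = (-1) ^ j * deriv H Real.pi - deriv H 0 := fun j hj => by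
      have k := congrFun hz j
      simp only [Pi.zero_apply, neg_eq_zero, if_neg hj] at k
      have k3 := hAB j
      rw [k, mul_zero] at k3
      linarith
    obtain ⟨C', hC'⟩ := coeff_le' hH2
    obtain ⟨n, hn⟩ := exists_nat_gt (C' / deriv H 0)
    have k1 := hC' (2 * (n + 1)) (by omega)
    have k2 := hC' (2 * (n + 1) + 1) (by omega)
    have b1 : |B (2 * (n + 1))| ≤ C' / ((2 * (n + 1) : ℕ) : ℝ) := k1
    have b2 : |B (2 * (n + 1) + 1)| ≤ C' / ((2 * (n + 1) + 1 : ℕ) : ℝ) := k2
    rw [hB' _ (by omega)] at b1 b2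
    rw [pow_mul, neg_one_sq, one_pow, one_mul] at b1
    rw [pow_succ, pow_mul, neg_one_sq, one_pow, one_mul] at b2
    have hC'0 : 0 ≤ C' := by
      have := (abs_nonneg _).trans b1
      rw [div_nonneg_iff] at this
      rcases this with h' | h'
      · exact h'.1
      · exfalso
        have h'' : (0 : ℝ) < ((2 * (n + 1) : ℕ) : ℝ) := by positivity
        linarith [h'.2]
    have g1 := (abs_le.1 b1).1
    have g2 := (abs_le.1 b2).1
    have hn0 : (0 : ℝ) ≤ n := Nat.cast_nonneg n
    have g3 : C' / ((2 * (n + 1) : ℕ) : ℝ) ≤ C' / (n + 1) := by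
      refine div_le_div_of_nonneg_left hC'0 (by positivity) ?_
      push_cast
      linarith
    have g4 : C' / ((2 * (n + 1) + 1 : ℕ) : ℝ) ≤ C' / (n + 1) := by
      refine div_le_div_of_nonneg_left hC'0 (by positivity) ?_
      push_cast
      linarith
    have g5 : deriv H 0 ≤ C' / (n + 1) := by linarith
    rw [le_div_iff₀ (by positivity)] at g5
    rw [div_lt_iff₀ hd] at hn
    nlinarith
  · linarith

/-- the Fourier inequality on `[0, D]`, even frequencies -/
theorem four_even' {D : ℝ} (hD : 0 < D) {h : ℝ → ℝ} (hh : ContDiff ℝ ∞ h) (h0 : h 0 = 0)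
    (h1 : h D = 0) (hd : 0 < deriv h 0) (hm : ∀ j : ℕ, j ≠ 0 →
      ∫ r in (0 : ℝ)..D, Real.cos ((2 * j) * (Real.pi / (2 * D) * r)) * h r ≤ 0) :
    0 < ∫ r in (0 : ℝ)..D, h r := by
  have hpi := Real.pi_pos
  set c : ℝ := D / Real.pi with hc
  have hc0 : 0 < c := by rw [hc]; positivity
  have e1 : c * Real.pi = D := by rw [hc]; field_simp
  have e2 : ∀ (j : ℕ) (x : ℝ), (2 * j) * (Real.pi / (2 * D) * (c * x)) = j * x := fun j x => by
    rw [hc]
    field_simp
  have key : ∀ f : ℝ → ℝ, ∫ r in (0 : ℝ)..D, f r =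
      c * ∫ x in (0 : ℝ)..Real.pi, f (c * x) := fun f => by
    have k := intervalIntegral.smul_integral_comp_mul_left (a := 0) (b := Real.pi) f c
    rw [mul_zero, e1, smul_eq_mul] at k
    exact k.symm
  have hH : ContDiff ℝ ∞ fun x => h (c * x) := hh.comp (contDiff_const.mul contDiff_id)
  have hdH : deriv (fun x => h (c * x)) 0 = c * deriv h 0 := by
    have k1 : HasDerivAt h (deriv h (c * 0)) (c * 0) :=
      (hh.differentiable (by simp) _).hasDerivAt
    have k2 : HasDerivAt (fun x => h (c * x)) (deriv h (c * 0) * (c * 1)) 0 :=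
      k1.comp (0 : ℝ) ((hasDerivAt_id (0 : ℝ)).const_mul c)
    rw [k2.deriv, mul_zero, mul_one, mul_comm]
  have k := four_even hH (by rw [mul_zero]; exact h0) (by rw [e1]; exact h1)
    (by rw [hdH]; positivity) (fun j hj => by
      have k1 := hm j hj
      rw [key] at k1
      simp only [e2] at k1
      by_contra hcon
      push Not at hcon
      exact absurd k1 (not_le.2 (mul_pos hc0 hcon)))
  rw [key]
  exact mul_pos hc0 k

end

end Vale.Agent.P231.S3V
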