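import Vale.Agent.P231.S3V.Wt

/-!
# P231, stage 3, S3-B (3)(ii): negativity of the second variation for the weighted families
-/

set_option maxSynthPendingDepth 3
set_option linter.unusedSectionVars false
set_option linter.unusedVariables false

open Bundle Manifold Set Filter Module MeasureTheory
open scoped ContDiff Manifold Topology

namespace Vale.Agent.P231.S3V

noncomputable section

open Vale.Agent.P234 Vale.Agent.P231 Vale.Agent.P231.Fm Vale.Agent.P231.W Vale.Agent.P231.WR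
open Vale.Agent.P231.H775 Vale.Agent.P231.WC Vale.Agent.P231.S2N
open Vale.Agent.P231.S3E2 (Sc zF dF LF IsW kq kq_zero kq_D nm_pos2 int_dF_fld ip_sum_left2
  int_cos_even int_sin_even int_mode zF_add zF_smul fa_zF deriv2_sum)

variable {E : Type*} [NormedAddCommGroup E] [NormedSpace ℝ E]
  {M : Type*} [MetricSpace M] [ChartedSpace E M]
  [RiemannianBundle (fun x : M => TangentSpace 𝓘(ℝ, E) x)]
  {e : ∀ x : M, TangentSpace 𝓘(ℝ, E) x → M}
  [FiniteDimensional ℝ E] [IsManifold 𝓘(ℝ, E) ∞ M]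
  [IsContMDiffRiemannianBundle 𝓘(ℝ, E) ∞ E (fun x : M => TangentSpace 𝓘(ℝ, E) x)]
  [CompactSpace M] [ConnectedSpace M] [IsRiemannianManifold 𝓘(ℝ, E) M]

variable {D : ℝ} {v : UT E M} {F : Facts e} {ι : Type} [Fintype ι] [DecidableEq ι]

/-- the vector of the kernel with the coordinates `c` -/
def wv (W : ι → UT E M → E) (u : UT E M) (c : EuclideanSpace ℝ ι) : E := ∑ i, c i • W i u

theorem wv_add (W : ι → UT E M → E) (u : UT E M) (c c' : EuclideanSpace ℝ ι) :
    wv W u (c + c') = wv W u c + wv W u c' := by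
  unfold wv
  rw [← Finset.sum_add_distrib]
  refine Finset.sum_congr rfl fun i _ => ?_
  rw [PiLp.add_apply, add_smul]

theorem wv_smul (W : ι → UT E M → E) (u : UT E M) (k : ℝ) (c : EuclideanSpace ℝ ι) :
    wv W u (k • c) = k • wv W u c := by
  unfold wv
  rw [Finset.smul_sum]
  refine Finset.sum_congr rfl fun i _ => ?_
  rw [PiLp.smul_apply, smul_eq_mul, mul_smul]

theorem wv_zero (W : ι → UT E M → E) (u : UT E M) : wv W u 0 = 0 := by
  have h := wv_smul W u 0 0
  rw [zero_smul, zero_smul] at h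
  exact h

/-- the source with the coordinates `C` -/
def US (F : Facts e) (W : ι → UT E M → E) (v : UT E M) (C : ℝ → EuclideanSpace ℝ ι) (s : ℝ) : E :=
  wv W (phi F (v, s)) (C s)

/-- the field with the source `US` -/
def ZC (F : Facts e) (D : ℝ) (W : ι → UT E M → E) (v : UT E M) (C : ℝ → EuclideanSpace ℝ ι)
    (t : ℝ) : E :=
  zF F D v (US F W v C) t

theorem ZC_eq (W : ι → UT E M → E) (v : UT E M) (C : ℝ → EuclideanSpace ℝ ι) (t : ℝ) :
    ZC F D W v C t =
      ∫ r in (0 : ℝ)..D, Jc e (phi F (v, t - r)) (wv W (phi F (v, t - r)) (C (t - r))) r := rfl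

theorem US_add (W : ι → UT E M → E) (v : UT E M) (C C' : ℝ → EuclideanSpace ℝ ι) :
    US F W v (fun s => C s + C' s) = fun s => US F W v C s + US F W v C' s :=
  funext fun s => wv_add W _ _ _

theorem US_smul (W : ι → UT E M → E) (v : UT E M) (c : ℝ → ℝ) (C : ℝ → EuclideanSpace ℝ ι) :
    US F W v (fun s => c s • C s) = fun s => c s • US F W v C s :=
  funext fun s => wv_smul W _ _ _

section Sm

variable {C : ℝ → EuclideanSpace ℝ ι}

theorem contDiff_coord (hC : ContDiff ℝ ∞ C) (i : ι) : ContDiff ℝ ∞ fun s => C s i :=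
  (EuclideanSpace.proj i : EuclideanSpace ℝ ι →L[ℝ] ℝ).contDiff.comp hC

theorem sc_US {W : ι → UT E M → E} (hW : ∀ i, LS e D (W i)) (v : UT E M) (hC : ContDiff ℝ ∞ C) :
    Sc F D v (US F W v C) := by
  have h := Sc.sum (F := F) (D := D) (v := v) Finset.univ (U := fun i t =>
    C t i • W i (phi F (v, t))) (fun i => (Sc.of_LS (hW i) v).smul (c := fun t => C t i)
      (contDiff_coord hC i))
  exact h

theorem US_per (hD : 0 < D) (hB : InjGE e D) (hdiam : ∀ p q : M, dist p q ≤ D)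
    (W : ι → UT E M → E) (v : UT E M) {σ : ℝ} (hC : ∀ t, C (t + 2 * D) = σ • C t) (t : ℝ) :
    US F W v C (t + 2 * D) = σ • US F W v C t := by
  have k := Vale.Agent.P231.W.phi_per F hD hB hdiam (phi F (v, t))
  rw [phi_add] at k
  unfold US
  rw [k, hC, wv_smul]

end Sm

variable {hD : 0 < D} {hB : InjGE e D} {hdiam : ∀ p q : M, dist p q ≤ D} {l : ℕ}
  {X δ : ι → UT E M → E} {ε : ℝ} {W : ι → UT E M → E}

/-- the pairing of the source with the boundary values of the fields -/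
theorem ip_US (hW : IsW F hD hB hdiam X δ ε W) (v : UT E M) (C : ℝ → EuclideanSpace ℝ ι)
    {b : EuclideanSpace ℝ ι} (hb : Pm F D X δ ε v b = b) (t : ℝ) :
    ip (gm e (v, t)) (US F W v C t) (Th0 F hD hB hdiam (XX X b) (phi F (v, t))) =
      ∑ i, C t i * b i := by
  have hb' : Pm F D X δ ε (phi F (v, t)) b = b := by rw [Fam.Pm_phi F hD hB hdiam, hb]
  have h1 : ip (gm e (v, t)) (US F W v C t) (Th0 F hD hB hdiam (XX X b) (phi F (v, t))) =
      ∑ i, ip (gm e (v, t)) (C t i • W i (phi F (v, t)))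
        (Th0 F hD hB hdiam (XX X b) (phi F (v, t))) := ip_sum_left2 _ _ _ _
  rw [h1]
  refine Finset.sum_congr rfl fun i _ => ?_
  have h2 : ip (gm e (v, t)) (W i (phi F (v, t))) (Th0 F hD hB hdiam (XX X b) (phi F (v, t))) =
      b i := hW.ip_eq (phi F (v, t)) b i hb'
  rw [ip_smul_left', h2]

theorem sum_sq_pos {b : EuclideanSpace ℝ ι} (hb : b ≠ 0) : 0 < ∑ i, b i * b i := by
  have h1 : ∑ i, b i * b i = ‖b‖ ^ 2 := by
    rw [EuclideanSpace.real_norm_sq_eq]
    exact Finset.sum_congr rfl fun i _ => by ring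
  rw [h1]
  have := norm_pos_iff.2 hb
  positivity

theorem US_ne (hW : IsW F hD hB hdiam X δ ε W) (v : UT E M) {C : ℝ → EuclideanSpace ℝ ι} {t : ℝ}
    (hC : Pm F D X δ ε v (C t) = C t) (h0 : C t ≠ 0) : US F W v C t ≠ 0 := by
  intro h
  have k := ip_US hW v C hC t
  have hz : ∀ (p : M) (a : E), ip p (0 : E) a = 0 := fun p a =>
    inner_zero_left (E := TangentSpace 𝓘(ℝ, E) p) (𝕜 := ℝ) _
  rw [h, hz] at k
  have := sum_sq_pos h0
  linarith

/-! ### positivity -/

variable {μ : ℝ → ℝ}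

/-- the common part of the two positivity statements -/
theorem pos_core
    (hP : ∀ x y : M, dist x y = D → finrank ℝ (H775.Pl e D x y) = l + 1)
    (hf : Fam F hD hB hdiam l X δ ε) (hW : IsW F hD hB hdiam X δ ε W) (v : UT E M) (hμ : TM D μ)
    {B : ℝ → EuclideanSpace ℝ ι} (hBs : ContDiff ℝ ∞ B) {σ : ℝ} (hσ : σ * σ = 1)
    (hBp : ∀ τ, B (τ + 2 * D) = σ • B τ) (hBP : ∀ τ, Pm F D X δ ε v (B τ) = B τ)
    (hne : ∃ τ ∈ Icc (0 : ℝ) (2 * D), B τ ≠ 0) {m : ℕ → ℝ}
    (hcore : ∀ (ν : ℝ → ℝ) (q : ℝ × ℝ → ℝ), ContDiff ℝ ∞ ν → (∀ τ, 0 < deriv ν τ) →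
      ContDiff ℝ ∞ q → (∀ τ, q (τ, τ - D) = 0) → (∀ τ, 0 ≤ q (τ, τ)) →
      (∃ τ ∈ Icc (0 : ℝ) (2 * D), 0 < q (τ, τ)) →
      (∀ j : ℕ, j ≠ 0 → (∫ ρ in (0 : ℝ)..D, hc (QQ ν q) (2 * D) (m j) ρ) ≤ 0 ∧
        (∫ ρ in (0 : ℝ)..D, hs (QQ ν q) (2 * D) (m j) ρ) ≤ 0) →
      0 < ∫ ρ in (0 : ℝ)..D, ∫ τ in (0 : ℝ)..(2 * D), QQ ν q (τ, τ - ρ))
    (hcm : ∀ j : ℕ, j ≠ 0 → ∀ τ, Real.cos (m j * (τ + 2 * D)) = σ * Real.cos (m j * τ))
    (hsm : ∀ j : ℕ, j ≠ 0 → ∀ τ, Real.sin (m j * (τ + 2 * D)) = σ * Real.sin (m j * τ))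
    (hci : ∀ j : ℕ, j ≠ 0 → ∀ b : EuclideanSpace ℝ ι,
      ∫ τ in (0 : ℝ)..(2 * D), Real.cos (m j * τ) * (∑ i, B τ i * b i) = 0)
    (hsi : ∀ j : ℕ, j ≠ 0 → ∀ b : EuclideanSpace ℝ ι,
      ∫ τ in (0 : ℝ)..(2 * D), Real.sin (m j * τ) * (∑ i, B τ i * b i) = 0) :
    0 < ∫ t in (0 : ℝ)..(2 * D), ip (gm e (v, t))
      (dF F hD hB hdiam v (US F W v fun s => deriv μ s • B (μ s)) t)
      (zF F D v (US F W v fun s => deriv μ s • B (μ s)) t) := by
  obtain ⟨ν, hν, hνμ, hμν, hν', hνp⟩ := hμ.exists_inv hD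
  have hBμ : ContDiff ℝ ∞ fun s => B (μ s) := hBs.comp hμ.sm
  set U0 : ℝ → E := US F W v fun s => B (μ s) with hU0
  have hS : Sc F D v U0 := sc_US hW.ls v hBμ
  have hU0p : ∀ t, U0 (t + 2 * D) = σ • U0 t :=
    US_per hD hB hdiam W v (C := fun s => B (μ s)) fun t => by rw [hμ.per2, hBp]
  have e1 : (US F W v fun s => deriv μ s • B (μ s)) = fun s => (deriv μ s * (fun _ => (1 : ℝ)) (μ s)) • U0 s := by
    rw [US_smul W v (deriv μ) fun s => B (μ s)]
    funext s
    rw [mul_one]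
  rw [e1, int_wt hD hB hdiam hP hμ hν hνμ hνp hS hσ hU0p (c := fun _ => (1 : ℝ)) contDiff_const
    (ς := 1) (by norm_num) (fun t => (one_mul 1).symm)]
  simp only [one_mul]
  have hνs : ∀ τ, ν (τ - D) = ν τ - D := by
    intro τ
    have := hνp (τ - D)
    rw [sub_add_cancel] at this
    linarith
  have hpos := hcore ν (qq F v ν U0) hν hν' (contDiff_qq hν hS.fa)
    (fun τ => by
      unfold qq
      simp only
      rw [hνs, sub_sub_cancel]
      exact (kq_D hD hB hdiam hS _).1)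
    (fun τ => by
      unfold qq
      simp only
      rw [sub_self, kq_zero]
      positivity)
    (by
      obtain ⟨τ, hτ, hne⟩ := hne
      refine ⟨τ, hτ, ?_⟩
      unfold qq
      simp only
      rw [sub_self, kq_zero]
      have h1 : U0 (ν τ) ≠ 0 := by
        refine US_ne hW v (C := fun s => B (μ s)) ?_ ?_
        · simp only [hμν]
          exact hBP τ
        · simp only [hμν]
          exact hne
      have h2 := nm_pos2 (x := gm e (v, ν τ)) h1
      positivity)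
    (fun j hj => by
      have hf' : ∀ b : EuclideanSpace ℝ ι, Continuous fun τ => ∑ i, B τ i * b i := fun b =>
        continuous_finsetSum _ fun i _ => (contDiff_coord hBs i).continuous.mul continuous_const
      have hfp : ∀ (b : EuclideanSpace ℝ ι) (τ : ℝ),
          ∑ i, B (τ + 2 * D) i * b i = σ * ∑ i, B τ i * b i := by
        intro b τ
        rw [hBp, Finset.mul_sum]
        refine Finset.sum_congr rfl fun i _ => ?_
        rw [PiLp.smul_apply, smul_eq_mul, mul_assoc]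
      have hmul : ContDiff ℝ ∞ fun τ : ℝ => m j * τ := contDiff_const.mul contDiff_id
      constructor
      · exact test_nonpos hP hf hμ hν hνμ hνp hS hσ hU0p
          (c := fun τ => Real.cos (m j * τ)) (Real.contDiff_cos.comp hmul) (hcm j hj)
          fun b hb => ⟨fun τ => ∑ i, B τ i * b i, hf' b, fun t => ip_US hW v _ hb t, hfp b,
            hci j hj b⟩
      · exact test_nonpos hP hf hμ hν hνμ hνp hS hσ hU0p
          (c := fun τ => Real.sin (m j * τ)) (Real.contDiff_sin.comp hmul) (hsm j hj)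
          fun b hb => ⟨fun τ => ∑ i, B τ i * b i, hf' b, fun t => ip_US hW v _ hb t, hfp b,
            hsi j hj b⟩)
  linarith

/-- the density of the odd part -/
def Bz (D : ℝ) (x y : EuclideanSpace ℝ ι) (τ : ℝ) : EuclideanSpace ℝ ι :=
  Real.cos (Real.pi / (2 * D) * τ) • x - Real.sin (Real.pi / (2 * D) * τ) • y

theorem contDiff_Bz (x y : EuclideanSpace ℝ ι) : ContDiff ℝ ∞ (Bz D x y) := by
  have h1 : ContDiff ℝ ∞ (fun t : ℝ => Real.pi / (2 * D) * t) := by fun_prop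
  exact ((Real.contDiff_cos.comp h1).smul contDiff_const).sub
    ((Real.contDiff_sin.comp h1).smul contDiff_const)

theorem Bz_per (hD : 0 < D) (x y : EuclideanSpace ℝ ι) (τ : ℝ) :
    Bz D x y (τ + 2 * D) = (-1 : ℝ) • Bz D x y τ := by
  have e1 : Real.pi / (2 * D) * (τ + 2 * D) = Real.pi / (2 * D) * τ + Real.pi := by
    field_simp
  unfold Bz
  rw [e1, Real.cos_add_pi, Real.sin_add_pi]
  module

theorem Bz_sum (x y b : EuclideanSpace ℝ ι) (τ : ℝ) : ∑ i, Bz D x y τ i * b i =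
    Real.cos (Real.pi / (2 * D) * τ) * (∑ i, x i * b i) +
      Real.sin (Real.pi / (2 * D) * τ) * (-∑ i, y i * b i) := by
  unfold Bz
  rw [← Finset.sum_neg_distrib, Finset.mul_sum, Finset.mul_sum, ← Finset.sum_add_distrib]
  refine Finset.sum_congr rfl fun i _ => ?_
  rw [PiLp.sub_apply, PiLp.smul_apply, PiLp.smul_apply, smul_eq_mul, smul_eq_mul]
  ring

/-- **positivity of the odd part** -/
theorem pos_z
    (hP : ∀ x y : M, dist x y = D → finrank ℝ (H775.Pl e D x y) = l + 1)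
    (hf : Fam F hD hB hdiam l X δ ε) (hW : IsW F hD hB hdiam X δ ε W) (v : UT E M) (hμ : TM D μ)
    {x y : EuclideanSpace ℝ ι} (hx : Pm F D X δ ε v x = x) (hy : Pm F D X δ ε v y = y)
    (hne : x ≠ 0 ∨ y ≠ 0) :
    0 < ∫ t in (0 : ℝ)..(2 * D), ip (gm e (v, t))
      (dF F hD hB hdiam v (US F W v fun s => deriv μ s • Bz D x y (μ s)) t)
      (zF F D v (US F W v fun s => deriv μ s • Bz D x y (μ s)) t) := by
  have h2D : (0 : ℝ) < 2 * D := by linarith
  have ha : ∀ (j : ℕ) (τ : ℝ), (2 * (j : ℝ) + 1) * (Real.pi / (2 * D)) * (τ + 2 * D) =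
      (2 * (j : ℝ) + 1) * (Real.pi / (2 * D)) * τ + Real.pi + j * (2 * Real.pi) := by
    intro j τ
    field_simp
    ring
  have he : ∀ (j : ℕ) (τ : ℝ), (2 * (j : ℝ) + 1) * (Real.pi / (2 * D)) * τ =
      (2 * j + 1) * (Real.pi / (2 * D) * τ) := fun j τ => by ring
  refine pos_core hP hf hW v hμ (contDiff_Bz x y) (σ := -1) (by norm_num) (Bz_per hD x y)
    (fun τ => ?_) ?_ (m := fun j : ℕ => (2 * j + 1) * (Real.pi / (2 * D)))
    (fun ν q hν hν' hq h1 hnn hp hF => core_odd hD hν hν' hq h2D h1 hnn hp hF)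
    (fun j hj τ => ?_) (fun j hj τ => ?_) (fun j hj b => ?_) (fun j hj b => ?_)
  · unfold Bz
    rw [map_sub, map_smul, map_smul, hx, hy]
  · rcases hne with h | h
    · refine ⟨0, ⟨le_rfl, h2D.le⟩, ?_⟩
      unfold Bz
      rw [mul_zero, Real.cos_zero, Real.sin_zero, one_smul, zero_smul, sub_zero]
      exact h
    · refine ⟨D, ⟨hD.le, by linarith⟩, ?_⟩
      have e1 : Real.pi / (2 * D) * D = Real.pi / 2 := by
        field_simp
      unfold Bz
      rw [e1, Real.cos_pi_div_two, Real.sin_pi_div_two, one_smul, zero_smul, zero_sub]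
      exact neg_ne_zero.2 h
  · rw [ha, Real.cos_add_nat_mul_two_pi, Real.cos_add_pi]
    ring
  · rw [ha, Real.sin_add_nat_mul_two_pi, Real.sin_add_pi]
    ring
  · simp only [Bz_sum, he]
    exact (int_mode hD j hj _ _).1
  · simp only [Bz_sum, he]
    exact (int_mode hD j hj _ _).2

/-- **positivity of the even part** -/
theorem pos_a
    (hP : ∀ x y : M, dist x y = D → finrank ℝ (H775.Pl e D x y) = l + 1)
    (hf : Fam F hD hB hdiam l X δ ε) (hW : IsW F hD hB hdiam X δ ε W) (v : UT E M) (hμ : TM D μ)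
    {a : EuclideanSpace ℝ ι} (ha : Pm F D X δ ε v a = a) (hne : a ≠ 0) :
    0 < ∫ t in (0 : ℝ)..(2 * D), ip (gm e (v, t))
      (dF F hD hB hdiam v (US F W v fun s => deriv μ s • a) t)
      (zF F D v (US F W v fun s => deriv μ s • a) t) := by
  have h2D : (0 : ℝ) < 2 * D := by linarith
  have hm : ∀ (j : ℕ) (τ : ℝ), 2 * (j : ℝ) * (Real.pi / (2 * D)) * (τ + 2 * D) =
      2 * (j : ℝ) * (Real.pi / (2 * D)) * τ + j * (2 * Real.pi) := by
    intro j τ
    field_simp
  have he : ∀ (j : ℕ) (τ : ℝ), 2 * (j : ℝ) * (Real.pi / (2 * D)) * τ =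
      2 * j * (Real.pi / (2 * D) * τ) := fun j τ => by ring
  refine pos_core hP hf hW v hμ (B := fun _ => a) contDiff_const (σ := 1) (by norm_num)
    (fun τ => (one_smul ℝ a).symm) (fun τ => ha) ⟨0, ⟨le_rfl, h2D.le⟩, hne⟩
    (m := fun j : ℕ => 2 * j * (Real.pi / (2 * D)))
    (fun ν q hν hν' hq h1 hnn hp hF => core_even hD hν hν' hq h2D h1 hnn hp hF)
    (fun j hj τ => ?_) (fun j hj τ => ?_) (fun j hj b => ?_) (fun j hj b => ?_)
  · rw [hm, Real.cos_add_nat_mul_two_pi, one_mul]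
  · rw [hm, Real.sin_add_nat_mul_two_pi, one_mul]
  · simp only [he]
    rw [intervalIntegral.integral_mul_const, int_cos_even hD j hj, zero_mul]
  · simp only [he]
    rw [intervalIntegral.integral_mul_const, int_sin_even hD j hj, zero_mul]

end

end Vale.Agent.P231.S3V
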