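import Vale.Agent.P231.S3V.Core
import Vale.Agent.P231.S3V.Anti
import Vale.Agent.P231.S3E2.Neg

/-!
# P231, stage 3, S3-B (3)(ii): the index form of the weighted superpositions
-/

set_option maxSynthPendingDepth 3
set_option linter.unusedSectionVars false
set_option linter.unusedVariables false

open Bundle Manifold Set Filter Module MeasureTheory
open scoped ContDiff Manifold Topology

namespace Vale.Agent.P231.S3V

noncomputable section

open Vale.Agent.P234 Vale.Agent.P231 Vale.Agent.P231.Fm Vale.Agent.P231.W Vale.Agent.P231.WR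
open Vale.Agent.P231.H775 Vale.Agent.P231.WC Vale.Agent.P231.S2N Vale.Agent.P231.S3E2

variable {E : Type*} [NormedAddCommGroup E] [NormedSpace ℝ E]
  {M : Type*} [MetricSpace M] [ChartedSpace E M]
  [RiemannianBundle (fun x : M => TangentSpace 𝓘(ℝ, E) x)]
  {e : ∀ x : M, TangentSpace 𝓘(ℝ, E) x → M}
  [FiniteDimensional ℝ E] [IsManifold 𝓘(ℝ, E) ∞ M]
  [IsContMDiffRiemannianBundle 𝓘(ℝ, E) ∞ E (fun x : M => TangentSpace 𝓘(ℝ, E) x)]
  [CompactSpace M] [ConnectedSpace M] [IsRiemannianManifold 𝓘(ℝ, E) M]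

variable {D : ℝ} {v : UT E M} {F : Facts e}

/-- the kernel of the pairing as a function of the two times -/
def kk (F : Facts e) (v : UT E M) (U : ℝ → E) (p : ℝ × ℝ) : ℝ :=
  (p.1 - p.2) * kq F v U p.2 (p.1 - p.2)

theorem kk_eq (U : ℝ → E) (t s : ℝ) : kk F v U (t, s) =
    ip (gm e (v, t)) (U t) (Jc e (phi F (v, s)) (U s) (t - s)) := by
  have h := mul_kq (F := F) (v := v) U s (t - s)
  rw [add_sub_cancel] at h
  exact h.symm

theorem cont_kk {U : ℝ → E} (hU : ∀ t, FA e v U t) : Continuous (kk F v U) :=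
  (continuous_fst.sub continuous_snd).mul ((contDiff_kq hU).continuous.comp
    (continuous_snd.prodMk (continuous_fst.sub continuous_snd)))

theorem kk_anti (hD : 0 < D) (hB : InjGE e D) (hdiam : ∀ p q : M, dist p q ≤ D)
    {U : ℝ → E} (h : Sc F D v U) (t s : ℝ) : kk F v U (s, t) = -kk F v U (t, s) := by
  rw [kk_eq, kk_eq, jf_anti F hD hB hdiam v t s (h.orth s) (h.orth t)]

theorem kk_per (hD : 0 < D) (hB : InjGE e D) (hdiam : ∀ p q : M, dist p q ≤ D) {U : ℝ → E}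
    {σ : ℝ} (hσ : σ * σ = 1) (hper : ∀ t, U (t + 2 * D) = σ • U t) (t s : ℝ) :
    kk F v U (t + 2 * D, s + 2 * D) = kk F v U (t, s) := by
  unfold kk
  have e1 : t + 2 * D - (s + 2 * D) = t - s := by ring
  simp only [e1]
  rw [kq_per hD hB hdiam hσ hper]

/-- **the pairing of a superposition with its source** -/
theorem int_dF_zF2 (hD : 0 < D) (hB : InjGE e D) (hdiam : ∀ p q : M, dist p q ≤ D) {l : ℕ}
    (hP : ∀ x y : M, dist x y = D → finrank ℝ (H775.Pl e D x y) = l + 1)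
    {U : ℝ → E} (h : Sc F D v U) {σ : ℝ} (hσ : σ * σ = 1) (hper : ∀ t, U (t + 2 * D) = σ • U t) :
    ∫ t in (0 : ℝ)..(2 * D), ip (gm e (v, t)) (dF F hD hB hdiam v U t) (zF F D v U t) =
      2 * ∫ t in (0 : ℝ)..(2 * D), ∫ r in (0 : ℝ)..D, kk F v U (t, t - r) := by
  have h1 : ∀ t, ip (gm e (v, t)) (dF F hD hB hdiam v U t) (zF F D v U t) =
      ∫ r in (0 : ℝ)..D, (kk F v U (t, t - r) - kk F v U (t - D, t - r)) := by
    intro t
    rw [ip_dF_zF hD hB hdiam hP h h]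
    refine intervalIntegral.integral_congr fun r _ => ?_
    have e1 : t - (t - r) = r := sub_sub_cancel t r
    have e2 : t - D - (t - r) = r - D := by ring
    have k1 := kk_eq (F := F) (v := v) U t (t - r)
    have k2 := kk_eq (F := F) (v := v) U (t - D) (t - r)
    rw [e1] at k1
    rw [e2] at k2
    rw [k1, k2]
  simp only [h1]
  exact pair_sym (cont_kk h.fa) (kk_per hD hB hdiam hσ hper) (kk_anti hD hB hdiam h)

/-! ### weights -/

variable {μ ν : ℝ → ℝ}

/-- the kernel in the new time -/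
def qq (F : Facts e) (v : UT E M) (ν : ℝ → ℝ) (U : ℝ → E) (p : ℝ × ℝ) : ℝ :=
  kq F v U (ν p.2) (ν p.1 - ν p.2)

theorem contDiff_qq (hν : ContDiff ℝ ∞ ν) {U : ℝ → E} (hU : ∀ t, FA e v U t) :
    ContDiff ℝ ∞ (qq F v ν U) :=
  (contDiff_kq hU).comp ((hν.comp contDiff_snd).prodMk
    ((hν.comp contDiff_fst).sub (hν.comp contDiff_snd)))

theorem kk_wt (hνμ : ∀ s, ν (μ s) = s) (U : ℝ → E) (c : ℝ → ℝ) (t s : ℝ) :
    kk F v (fun s => (deriv μ s * c (μ s)) • U s) (t, s) =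
      deriv μ t * deriv μ s * (c (μ t) * c (μ s) * QQ ν (qq F v ν U) (μ t, μ s)) := by
  unfold kk QQ qq
  simp only [hνμ]
  have k := kq_cut (F := F) (v := v) U (fun s => deriv μ s * c (μ s)) s (t - s)
  rw [k, add_sub_cancel]
  ring

/-- the pairing of a weighted superposition in the new time -/
theorem int_wt (hD : 0 < D) (hB : InjGE e D) (hdiam : ∀ p q : M, dist p q ≤ D) {l : ℕ}
    (hP : ∀ x y : M, dist x y = D → finrank ℝ (H775.Pl e D x y) = l + 1) (hμ : TM D μ)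
    (hν : ContDiff ℝ ∞ ν) (hνμ : ∀ s, ν (μ s) = s) (hνp : ∀ τ, ν (τ + D) = ν τ + D)
    {U : ℝ → E} (h : Sc F D v U) {σ : ℝ} (hσ : σ * σ = 1) (hper : ∀ t, U (t + 2 * D) = σ • U t)
    {c : ℝ → ℝ} (hc : ContDiff ℝ ∞ c) {ς : ℝ} (hς : ς * ς = 1)
    (hcp : ∀ t, c (t + 2 * D) = ς * c t) :
    ∫ t in (0 : ℝ)..(2 * D), ip (gm e (v, t))
      (dF F hD hB hdiam v (fun s => (deriv μ s * c (μ s)) • U s) t)
      (zF F D v (fun s => (deriv μ s * c (μ s)) • U s) t) =
      2 * ∫ ρ in (0 : ℝ)..D, ∫ τ in (0 : ℝ)..(2 * D),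
        c τ * c (τ - ρ) * QQ ν (qq F v ν U) (τ, τ - ρ) := by
  have hdμ : ContDiff ℝ ∞ (deriv μ) := (contDiff_infty_iff_deriv.1 hμ.sm).2
  have hw : ContDiff ℝ ∞ fun s => deriv μ s * c (μ s) := hdμ.mul (hc.comp hμ.sm)
  have hS := h.smul hw
  have hdp : ∀ t, deriv μ (t + 2 * D) = deriv μ t := by
    intro t
    have e1 : t + 2 * D = t + D + D := by ring
    rw [e1, hμ.deriv_per, hμ.deriv_per]
  have hper' : ∀ t, (deriv μ (t + 2 * D) * c (μ (t + 2 * D))) • U (t + 2 * D) =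
      (σ * ς) • ((deriv μ t * c (μ t)) • U t) := by
    intro t
    rw [hdp, hμ.per2, hcp, hper, smul_smul, smul_smul]
    congr 1
    ring
  have hσς : σ * ς * (σ * ς) = 1 := by
    have : σ * ς * (σ * ς) = (σ * σ) * (ς * ς) := by ring
    rw [this, hσ, hς, one_mul]
  rw [int_dF_zF2 hD hB hdiam hP hS hσς hper']
  simp only [kk_wt hνμ]
  have hν2 : ∀ τ, ν (τ + 2 * D) = ν τ + 2 * D := by
    intro τ
    have e1 : τ + 2 * D = τ + D + D := by ring
    rw [e1, hνp, hνp]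
    ring
  have hQ : Continuous (QQ ν (qq F v ν U)) := (contDiff_QQ hν (contDiff_qq hν h.fa)).continuous
  have hQp : ∀ τ s, QQ ν (qq F v ν U) (τ + 2 * D, s + 2 * D) = QQ ν (qq F v ν U) (τ, s) := by
    intro τ s
    unfold QQ qq
    simp only [hν2]
    have e1 : ν τ + 2 * D - (ν s + 2 * D) = ν τ - ν s := by ring
    rw [e1, kq_per hD hB hdiam hσ hper]
  have hQc : Continuous fun p : ℝ × ℝ => c p.1 * c p.2 * QQ ν (qq F v ν U) p :=
    ((hc.continuous.comp continuous_fst).mul (hc.continuous.comp continuous_snd)).mul hQ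
  have k := hμ.subst (Q := fun p : ℝ × ℝ => c p.1 * c p.2 * QQ ν (qq F v ν U) p) hQc
    (T := 2 * D) hμ.per2 (fun τ s => by
      simp only
      rw [hQp, hcp, hcp]
      have e1 : ς * c τ * (ς * c s) = (ς * ς) * (c τ * c s) := by ring
      rw [e1, hς, one_mul])
  exact congrArg (fun x : ℝ => 2 * x) k

variable {ι : Type} [Fintype ι] [DecidableEq ι] {l : ℕ} {X δ : ι → UT E M → E} {ε : ℝ}
  {hD : 0 < D} {hB : InjGE e D} {hdiam : ∀ p q : M, dist p q ≤ D}

/-- the test fields -/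
theorem test_nonpos
    (hP : ∀ x y : M, dist x y = D → finrank ℝ (H775.Pl e D x y) = l + 1)
    (hf : Fam F hD hB hdiam l X δ ε) (hμ : TM D μ)
    (hν : ContDiff ℝ ∞ ν) (hνμ : ∀ s, ν (μ s) = s) (hνp : ∀ τ, ν (τ + D) = ν τ + D)
    {U : ℝ → E} (h : Sc F D v U) {σ : ℝ} (hσ : σ * σ = 1) (hper : ∀ t, U (t + 2 * D) = σ • U t)
    {c : ℝ → ℝ} (hc : ContDiff ℝ ∞ c) (hcp : ∀ t, c (t + 2 * D) = σ * c t)
    (horth : ∀ b, Pm F D X δ ε v b = b → ∃ f : ℝ → ℝ, Continuous f ∧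
      (∀ t, ip (gm e (v, t)) (U t) (Th0 F hD hB hdiam (XX X b) (phi F (v, t))) = f (μ t)) ∧
      (∀ τ, f (τ + 2 * D) = σ * f τ) ∧
      ∫ τ in (0 : ℝ)..(2 * D), c τ * f τ = 0) :
    ∫ ρ in (0 : ℝ)..D, ∫ τ in (0 : ℝ)..(2 * D),
        c τ * c (τ - ρ) * QQ ν (qq F v ν U) (τ, τ - ρ) ≤ 0 := by
  have hdμ : ContDiff ℝ ∞ (deriv μ) := (contDiff_infty_iff_deriv.1 hμ.sm).2
  have hw : ContDiff ℝ ∞ fun s => deriv μ s * c (μ s) := hdμ.mul (hc.comp hμ.sm)
  have hS := h.smul hw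
  have hdp : ∀ t, deriv μ (t + 2 * D) = deriv μ t := by
    intro t
    have e1 : t + 2 * D = t + D + D := by ring
    rw [e1, hμ.deriv_per, hμ.deriv_per]
  have hper' : ∀ t, (deriv μ (t + 2 * D) * c (μ (t + 2 * D))) • U (t + 2 * D) =
      (deriv μ t * c (μ t)) • U t := by
    intro t
    rw [hdp, hμ.per2, hcp, hper, smul_smul]
    congr 1
    have : deriv μ t * (σ * c (μ t)) * σ = (σ * σ) * (deriv μ t * c (μ t)) := by ring
    rw [this, hσ, one_mul]
  have hLF := LF.of_Sc (hD := hD) (hB := hB) (hdiam := hdiam) hP hS hper'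
  have key := hLF.int_nonpos_of_orth hP hf fun b hb => by
    rw [int_dF_fld hD hB hdiam hP hS hper' (DF.xx hf.df b).fld]
    obtain ⟨f, hfc, hf1, hf2, hf3⟩ := horth b hb
    have e1 : ∀ t, ip (gm e (v, t)) ((deriv μ t * c (μ t)) • U t)
        (Th0 F hD hB hdiam (XX X b) (phi F (v, t))) = (fun τ => c τ * f τ) (μ t) * deriv μ t := by
      intro t
      have k : ip (gm e (v, t)) ((deriv μ t * c (μ t)) • U t)
        (Th0 F hD hB hdiam (XX X b) (phi F (v, t))) = deriv μ t * c (μ t) *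
          ip (gm e (v, t)) (U t) (Th0 F hD hB hdiam (XX X b) (phi F (v, t))) :=
        ip_smul_left' _ _ _ _
      rw [k, hf1]
      ring
    simp only [e1]
    have k1 := intervalIntegral.integral_comp_mul_deriv (a := 0) (b := 2 * D)
      (f := μ) (f' := deriv μ) (g := fun τ => c τ * f τ) (fun x _ => hμ.hasDerivAt x)
      hμ.cont_deriv.continuousOn (hc.continuous.mul hfc)
    have k3 : μ (2 * D) = μ 0 + 2 * D := by
      have := hμ.per2 0
      rwa [zero_add] at this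
    have k4 : Function.Periodic (fun τ => c τ * f τ) (2 * D) := by
      intro τ
      simp only [hcp, hf2]
      have : σ * c τ * (σ * f τ) = (σ * σ) * (c τ * f τ) := by ring
      rw [this, hσ, one_mul]
    have k5 := k4.intervalIntegral_add_eq (μ 0) 0
    rw [zero_add] at k5
    rw [k3, k5, hf3] at k1
    exact k1
  rw [int_wt hD hB hdiam hP hμ hν hνμ hνp h hσ hper hc hσ hcp] at key
  linarith

end

end Vale.Agent.P231.S3V
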